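import Mathlib

/-!
P262, `S₂(d) = O(√d)`: shared definitions. See `PROOF.md`.
Vectors are functions `Fin D → ℝ`; no inner-product-space structure is used.
-/

namespace Vale.Agent.P262.St

open Finset

variable {D : ℕ}

/-- Squared Euclidean norm. -/
def sq (x : Fin D → ℝ) : ℝ := ∑ k, x k ^ 2

/-- The summable weight `1/(1+|j|)^2`. -/
noncomputable def wt (j : ℤ) : ℝ := 1 / (1 + |(j : ℝ)|) ^ 2

/-- Regularised number of exponents near level `l`. -/
noncomputable def Nf (s : Fin D → ℤ) (l : ℕ) : ℝ := ∑ k, wt (s k - l)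

/-- Logarithm of `Nf`. -/
noncomputable def lg (s : Fin D → ℤ) (l : ℕ) : ℕ := Nat.log 2 (⌈Nf s l⌉₊ + 1)

/-- The threshold slope. -/
noncomputable def pslope : ℕ := 512

/-- Band width at level `l`. -/
noncomputable def Pf (J0 : ℕ) (s : Fin D → ℤ) (l : ℕ) : ℕ := J0 + pslope * lg s l

/-- Monotone thresholds. -/
noncomputable def th (J0 : ℕ) (s : Fin D → ℤ) (c l : ℕ) : ℕ :=
  (range (l + 1)).sup fun l' => l' + c * Pf J0 s l'

/-- Number of Chobanyan passes of a step starting at level `l`. -/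
noncomputable def mj (s : Fin D → ℤ) (l : ℕ) : ℕ := lg s l / 8

/-- Levels of the steps. -/
noncomputable def lv (s : Fin D → ℤ) : ℕ → ℕ
  | 0 => 0
  | t + 1 => lv s t + 3 + mj s (lv s t)

/-- The top level used by step `t`. -/
noncomputable def top (s : Fin D → ℤ) (t : ℕ) : ℕ := lv s (t + 1) + 2

/-- Band coordinates of step `t`. -/
noncomputable def Bset (J0 : ℕ) (s : Fin D → ℤ) (t : ℕ) : Finset (Fin D) :=
  univ.filter fun k => (lv s t : ℤ) ≤ s k ∧ s k < (th J0 s 5 (top s t) : ℤ)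

/-- Absorbed coordinates of step `t`. -/
noncomputable def Sset (J0 : ℕ) (s : Fin D → ℤ) (t : ℕ) : Finset (Fin D) :=
  univ.filter fun k => (th J0 s 3 (top s t) : ℤ) ≤ s k

/-- Coordinates with two-sided Gram control in step `t`. -/
noncomputable def Gset (J0 : ℕ) (s : Fin D → ℤ) (t : ℕ) : Finset (Fin D) :=
  univ.filter fun k => (th J0 s 1 (top s t) : ℤ) ≤ s k

/-- The budget of step `t`. -/
noncomputable def Uf (J0 : ℕ) (s : Fin D → ℤ) (t : ℕ) : ℝ :=
  if Bset J0 s t = ∅ then 0 else 1 + (Bset J0 s t).card + Nf s (lv s t)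

end Vale.Agent.P262.St
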