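import Mathlib
import Vale.Agent.P262.St.Defs

/-! P262, `S₂(d) = O(√d)`: statements of the modules. Only propositions; nothing is assumed.
See `PROOF.md`. -/

namespace Vale.Agent.P262.St

open Finset
open Classical

/-- Module 0 consumes this: the theorem for unit vectors with diagonal Gram matrix. -/
def UnitDiagBound : Prop :=
  ∃ C : ℝ, ∀ (D n : ℕ) (v : Fin n → Fin D → ℝ), (∀ i, sq (v i) = 1) → (∀ k, ∑ i, v i k = 0) →
    (∀ k k', k ≠ k' → ∑ i, v i k * v i k' = 0) →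
    ∃ π : Equiv.Perm (Fin n), ∀ m : ℕ,
      ∑ k : Fin D, (∑ i ∈ univ.filter (fun i : Fin n => (i : ℕ) < m), v (π i) k) ^ 2 ≤ C * D

/-- The result: `S₂(d) ≤ C √d`. -/
def SteinitzSqrt : Prop :=
  ∃ C : ℝ, ∀ (d n : ℕ) (v : Fin n → EuclideanSpace ℝ (Fin d)), (∀ i, ‖v i‖ ≤ 1) → ∑ i, v i = 0 →
    ∃ π : Equiv.Perm (Fin n), ∀ m : ℕ,
      ‖∑ i ∈ univ.filter (fun i : Fin n => (i : ℕ) < m), v (π i)‖ ≤ C * Real.sqrt d

/-- Module 0. -/
def Reduction : Prop := UnitDiagBound → SteinitzSqrt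

/-- Module 1: the schedule. -/
def SchedFacts : Prop :=
  ∃ K : ℝ, 0 < K ∧
    -- `F5`
    (∀ ε : ℝ, 0 < ε → ∃ J₁ : ℕ, ∀ (D J0 : ℕ), J₁ ≤ J0 → ∀ (s : Fin D → ℤ) (l : ℕ),
      ∑ k ∈ univ.filter (fun k => ((l + Pf J0 s l : ℕ) : ℤ) ≤ s k),
        (Nf s l + 2) ^ 20 * (1 + (s k - l : ℝ)) ^ 10 * (2 : ℝ) ^ (-((s k - l : ℝ) / 16)) ≤ ε) ∧
    ∀ (D J0 : ℕ) (s : Fin D → ℤ), 1 ≤ J0 → ∀ A : ℝ, (A = K * (J0 + 1)) →
      -- `F1`
      (∀ k T, ((range T).filter (fun t => k ∈ Bset J0 s t)).card ≤ A) ∧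
      -- `F2`
      (∀ T, ∑ t ∈ range T, Uf J0 s t ≤ A * D) ∧
      (∀ T, ∑ t ∈ range T, Nf s (lv s t) ≤ K * D) ∧
      -- `F3`
      (∀ c, Monotone (th J0 s c)) ∧
      (∀ c l, c ≤ 5 → l + c * Pf J0 s l ≤ th J0 s c l ∧
        (th J0 s c l : ℝ) ≤ l + 2 * c * Pf J0 s l + K) ∧
      (∀ c l, th J0 s c l + 2 * Pf J0 s l ≤ th J0 s (c + 2) l) ∧
      -- `F4`
      (∀ t, Nf s (lv s t) + 2 ≤ K * (Nf s (top s t) + 2) ^ 3) ∧
      (∀ t, (mj s (lv s t) : ℝ) ≤ Real.logb 2 (Nf s (lv s t) + 2) / 8 + 1) ∧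
      (∀ t, (2 : ℝ) ^ mj s (lv s t) ≤ K * (Nf s (lv s t) + 2) ^ ((1 : ℝ) / 8)) ∧
      -- regularity
      (∀ a b : ℕ, Nf s a ≤ (1 + |(a : ℝ) - b|) ^ 2 * Nf s b) ∧
      -- `F6`
      (∀ l j : ℕ, ((univ.filter fun k => (l : ℤ) ≤ s k ∧ s k < ((l + j : ℕ) : ℤ)).card : ℝ)
        ≤ Nf s l * (1 + (j : ℝ)) ^ 3)

/-- Module 2: the walk engine (deterministic). The scalar functionals `c g` form classes `cls g`; a
class has one protection predicate and one budget, and belongs to one test. -/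
def EngineExists : Prop :=
  ∀ (n G H q r₀ : ℕ) (c : Fin G → Fin n → ℝ) (cls : Fin G → Fin H) (tst : Fin H → Fin q)
    (prot : Fin H → Finset (Fin n) → Prop) (W : Fin H → ℝ),
    (∀ h S S', S ⊆ S' → prot h S → prot h S') →
    (∀ h, 0 ≤ W h) →
    (∀ h S, ¬ prot h S →
      ∑ g ∈ univ.filter (fun g => cls g = h), ∑ i ∈ S, c g i ^ 2 ≤ W h) →
    (∀ S : Finset (Fin n), r₀ < S.card →
      ∃ (Act : Finset (Fin n)) (r : ℕ) (row : Fin r → Fin n → ℝ),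
        Act ⊆ S ∧ 2 * (r + 2 * q + 1) ≤ Act.card ∧
        ∀ g, prot (cls g) S → ∀ u : Fin n → ℝ, (∀ i, i ∉ Act → u i = 0) →
          (∀ a, ∑ i, row a i * u i = 0) → ∑ i, c g i * u i = 0) →
    ∀ x : Fin n → ℝ, (∀ i, |x i| ≤ 1) →
      ∃ y : Fin n → ℝ, (∀ i, |y i| ≤ 1) ∧ (univ.filter fun i => |y i| < 1).card ≤ r₀ ∧
        ∀ j, ∑ g ∈ univ.filter (fun g => tst (cls g) = j), (∑ i, c g i * (y i - x i)) ^ 2
          ≤ 7 * ∑ h ∈ univ.filter (fun h => tst h = j), W h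

/-- Module 3: one signing of `M` pieces. `pc` is the piece of an item, `wgt` the weights on the weak
coordinates, `σ` the weights of the strong coordinates, `ω` the weights of the Gram entries, `T` a
list of functionals with values in `[0,1]`, `U` the top exponent of the unweighted strong test. -/
def SignExists : Prop :=
  ∃ K : ℝ, ∀ (D n M ne : ℕ) (v : Fin n → Fin D → ℝ) (pc : Fin n → Fin M) (x : Fin n → ℝ)
    (s : Fin D → ℤ) (a b θ U : ℤ) (wgt : Fin D → ℝ) (σ : ℤ → ℝ)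
    (ω : Fin D → Fin D → ℝ) (T : Fin ne → Fin n → ℝ),
    1 ≤ M → (∀ i, sq (v i) = 1) → (∀ i, |x i| ≤ 1) → a ≤ b → a ≤ θ →
    (∀ k, 0 ≤ wgt k) → (∀ u, 0 ≤ σ u) → (∀ j i, 0 ≤ T j i ∧ T j i ≤ 1) →
    let B := univ.filter (fun k => a ≤ s k ∧ s k < b)
    let Sg := univ.filter (fun k => θ ≤ s k)
    let q : ℝ := M * (ne + 5)
    ∃ ε : Fin n → ℝ, (∀ i, ε i = 1 ∨ ε i = -1) ∧
      -- (a) band, every prefix
      (∀ p : Fin M, ∑ k ∈ B, (∑ i ∈ univ.filter (fun i => pc i ≤ p), (ε i - x i) * v i k) ^ 2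
        ≤ K * (B.card + q ^ 2)) ∧
      -- (b) weak, every prefix
      (∀ p : Fin M, ∑ k ∈ univ.filter (fun k => s k < a),
          wgt k * (∑ i ∈ univ.filter (fun i => pc i ≤ p), (ε i - x i) * v i k) ^ 2
        ≤ K * ∑ i, ∑ k ∈ univ.filter (fun k => s k < a), wgt k * v i k ^ 2) ∧
      -- (c) strong, every piece
      (∀ p : Fin M, ∑ k ∈ Sg, σ (s k) * (∑ i ∈ univ.filter (fun i => pc i = p),
          (ε i - x i) * v i k) ^ 2
        ≤ K * ∑ u ∈ Sg.image s,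
            σ u * (B.card + (univ.filter fun k => θ ≤ s k ∧ s k ≤ u).card + q ^ 2)) ∧
      -- (c') strong up to `U`, unweighted, every piece
      (∀ p : Fin M, ∑ k ∈ univ.filter (fun k => θ ≤ s k ∧ s k ≤ U),
          (∑ i ∈ univ.filter (fun i => pc i = p), (ε i - x i) * v i k) ^ 2
        ≤ K * (B.card + (univ.filter fun k => θ ≤ s k ∧ s k ≤ U).card + q ^ 2)) ∧
      -- (d) Gram, every piece
      (∀ p : Fin M, ∀ W Z : ℝ, 0 ≤ Z →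
        (∑ k, ∑ k', ω k k' ^ 2 * ∑ i ∈ univ.filter (fun i => pc i = p),
          v i k ^ 2 * v i k' ^ 2) ≤ W →
        (∀ i, ∑ k, ∑ k', ω k k' ^ 2 * (v i k ^ 2 * v i k' ^ 2) ≤ Z) →
        ∑ k, ∑ k', (ω k k' * ∑ i ∈ univ.filter (fun i => pc i = p),
          (ε i - x i) * (v i k * v i k')) ^ 2 ≤ K * (W + q ^ 2 * Z)) ∧
      -- (e) bounded functionals, every piece
      (∀ p : Fin M, ∀ j, (∑ i ∈ univ.filter (fun i => pc i = p), (ε i - x i) * T j i) ^ 2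
        ≤ K * ((∑ i ∈ univ.filter (fun i => pc i = p), T j i) + q ^ 2))

/-- Module 4: exact tilt. If the Gram matrix is `1/4`-close to `diag gh` on `S`, a demand with small
`Ω` is met exactly by a small tilt. -/
def TiltExists : Prop :=
  ∀ (D n : ℕ) (v : Fin n → Fin D → ℝ) (S : Finset (Fin D)) (gh c : Fin D → ℝ),
    (∀ k, 0 < gh k) →
    (∑ k ∈ S, ∑ l ∈ S, ((∑ i, v i k * v i l) - if k = l then gh k else 0) ^ 2 / (gh k * gh l)
      ≤ 1 / 16) →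
    ∃ x : Fin n → ℝ, (∀ k ∈ S, ∑ i, x i * v i k = c k) ∧
      ∑ i, x i ^ 2 ≤ 2 * ∑ k ∈ S, c k ^ 2 / gh k

end Vale.Agent.P262.St
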