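import Mathlib
import Vale.Agent.P262.St.Defs

/-! P262, Steinitz: the weighted Gram error of a set of items. -/

namespace Vale.Agent.P262.St

open Finset

variable {D n : ℕ}

/-- Eigenvalue of the whole family scaled to level `l`. -/
noncomputable def gh (g : Fin D → ℝ) (l : ℕ) (k : Fin D) : ℝ := g k / 2 ^ l

/-- Entry of the Gram error. -/
noncomputable def gDel (v : Fin n → Fin D → ℝ) (g : Fin D → ℝ) (l : ℕ) (F : Finset (Fin n))
    (k k' : Fin D) : ℝ :=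
  (∑ i ∈ F, v i k * v i k') - if k = k' then gh g l k else 0

/-- Weight of an entry, `(ĝ_k ĝ_k')^(σ-1/2)` with `σ = 1/8`. -/
noncomputable def gW (g : Fin D → ℝ) (l : ℕ) (k k' : Fin D) : ℝ :=
  (gh g l k * gh g l k') ^ (-(3 : ℝ) / 8)

/-- The squared weighted Frobenius error on `G`. -/
noncomputable def gErr (v : Fin n → Fin D → ℝ) (g : Fin D → ℝ) (G : Finset (Fin D)) (l : ℕ)
    (F : Finset (Fin n)) : ℝ :=
  ∑ k ∈ G, ∑ k' ∈ G, (gW g l k k' * gDel v g l F k k') ^ 2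

theorem gErr_nonneg (v : Fin n → Fin D → ℝ) (g : Fin D → ℝ) (G : Finset (Fin D)) (l : ℕ)
    (F : Finset (Fin n)) : 0 ≤ gErr v g G l F :=
  Finset.sum_nonneg fun _ _ => Finset.sum_nonneg fun _ _ => sq_nonneg _

theorem gErr_mono (v : Fin n → Fin D → ℝ) (g : Fin D → ℝ) {G G' : Finset (Fin D)} (h : G ⊆ G')
    (l : ℕ) (F : Finset (Fin n)) : gErr v g G l F ≤ gErr v g G' l F := by
  refine le_trans (Finset.sum_le_sum_of_subset_of_nonneg h ?_) ?_
  · exact fun _ _ _ => Finset.sum_nonneg fun _ _ => sq_nonneg _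
  · exact Finset.sum_le_sum fun k _ =>
      Finset.sum_le_sum_of_subset_of_nonneg h fun _ _ _ => sq_nonneg _

theorem gh_succ (g : Fin D → ℝ) (l : ℕ) (k : Fin D) : gh g (l + 1) k = gh g l k / 2 := by
  rw [gh, gh, pow_succ, div_div]

theorem gW_pos {g : Fin D → ℝ} {l : ℕ} {k k' : Fin D} (h : 0 < gh g l k) (h' : 0 < gh g l k') :
    0 < gW g l k k' := Real.rpow_pos_of_pos (mul_pos h h') _

theorem gW_succ {g : Fin D → ℝ} {l : ℕ} {k k' : Fin D} (h : 0 < gh g l k) (h' : 0 < gh g l k') :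
    gW g (l + 1) k k' = (2 : ℝ) ^ ((3 : ℝ) / 4) * gW g l k k' := by
  rw [gW, gW, gh_succ, gh_succ]
  have e : gh g l k / 2 * (gh g l k' / 2) = gh g l k * gh g l k' * (2 : ℝ) ^ (-(2 : ℝ)) := by
    rw [Real.rpow_neg (by norm_num), Real.rpow_two]
    ring
  rw [e, Real.mul_rpow (mul_pos h h').le (Real.rpow_pos_of_pos two_pos _).le,
    ← Real.rpow_mul (by norm_num)]
  norm_num
  ring

/-- One halving: the error contracts by `2^(-1/2)` in square, plus the deviation. -/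
theorem gErr_halve (v : Fin n → Fin D → ℝ) (g : Fin D → ℝ) (G : Finset (Fin D)) (l : ℕ)
    (F A : Finset (Fin n)) (hA : A ⊆ F) (hpos : ∀ k ∈ G, 0 < gh g l k) :
    gErr v g G (l + 1) A ≤ (85 / 100) * gErr v g G l F +
      5 * ∑ k ∈ G, ∑ k' ∈ G,
        (gW g l k k' * ∑ i ∈ F, (if i ∈ A then (1 : ℝ) else -1) * (v i k * v i k')) ^ 2 := by
  simp only [gErr, Finset.mul_sum, ← Finset.sum_add_distrib]
  refine Finset.sum_le_sum fun k hk => Finset.sum_le_sum fun k' hk' => ?_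
  rw [← Finset.mul_sum, gW_succ (hpos k hk) (hpos k' hk')]
  have e : gDel v g (l + 1) A k k' = (gDel v g l F k k' +
      ∑ i ∈ F, (if i ∈ A then (1 : ℝ) else -1) * (v i k * v i k')) / 2 := by
    simp only [gDel, gh_succ]
    rw [← Finset.sum_sdiff hA (f := fun i => v i k * v i k'),
      ← Finset.sum_sdiff hA (f := fun i => (if i ∈ A then (1 : ℝ) else -1) * (v i k * v i k'))]
    have h1 : ∑ i ∈ A, (if i ∈ A then (1 : ℝ) else -1) * (v i k * v i k')
        = ∑ i ∈ A, v i k * v i k' :=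
      Finset.sum_congr rfl fun i hi => by rw [if_pos hi, one_mul]
    have h2 : ∑ i ∈ F \ A, (if i ∈ A then (1 : ℝ) else -1) * (v i k * v i k')
        = - ∑ i ∈ F \ A, v i k * v i k' := by
      rw [← Finset.sum_neg_distrib]
      exact Finset.sum_congr rfl fun i hi => by
        rw [if_neg (Finset.mem_sdiff.1 hi).2]; ring
    rw [h1, h2]
    split_ifs <;> ring
  rw [e]
  set a := gW g l k k' * gDel v g l F k k' with ha
  set b := gW g l k k' * ∑ i ∈ F, (if i ∈ A then (1 : ℝ) else -1) * (v i k * v i k') with hb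
  have e2 : ((2 : ℝ) ^ ((3 : ℝ) / 4)) ^ 2 = (2 : ℝ) ^ ((3 : ℝ) / 2) := by
    rw [← Real.rpow_natCast, ← Real.rpow_mul (by norm_num)]
    norm_num
  have e3 : (2 : ℝ) ^ ((3 : ℝ) / 2) ≤ 2829 / 1000 := by
    have h : ((2 : ℝ) ^ ((3 : ℝ) / 2)) ^ 2 = 8 := by
      rw [← Real.rpow_natCast, ← Real.rpow_mul (by norm_num)]
      norm_num
    have : 0 ≤ (2 : ℝ) ^ ((3 : ℝ) / 2) := by positivity
    nlinarith
  calc ((2 : ℝ) ^ ((3 : ℝ) / 4) * gW g l k k' * ((gDel v g l F k k' +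
        ∑ i ∈ F, (if i ∈ A then (1 : ℝ) else -1) * (v i k * v i k')) / 2)) ^ 2
      = (2 : ℝ) ^ ((3 : ℝ) / 2) / 4 * (a + b) ^ 2 := by
        rw [← e2, ha, hb]; ring
    _ ≤ 2829 / 4000 * (a + b) ^ 2 := by
        have := sq_nonneg (a + b)
        nlinarith
    _ ≤ (85 / 100) * a ^ 2 + 5 * b ^ 2 := by nlinarith [sq_nonneg (a - 5 * b), sq_nonneg b, sq_nonneg a]

/-- Joining two halves of level `l + 1`. -/
theorem gErr_union (v : Fin n → Fin D → ℝ) (g : Fin D → ℝ) (G : Finset (Fin D)) (l : ℕ)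
    (A B : Finset (Fin n)) (hAB : Disjoint A B) (hpos : ∀ k ∈ G, 0 < gh g l k) :
    gErr v g G l (A ∪ B) ≤ (3 / 4) * (gErr v g G (l + 1) A + gErr v g G (l + 1) B) := by
  simp only [gErr, mul_add, Finset.mul_sum, ← Finset.sum_add_distrib]
  refine Finset.sum_le_sum fun k hk => Finset.sum_le_sum fun k' hk' => ?_
  rw [gW_succ (hpos k hk) (hpos k' hk')]
  have e : gDel v g l (A ∪ B) k k' = gDel v g (l + 1) A k k' + gDel v g (l + 1) B k k' := by
    simp only [gDel, gh_succ, Finset.sum_union hAB]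
    split_ifs <;> ring
  rw [e]
  set a := gW g l k k' * gDel v g (l + 1) A k k' with ha
  set b := gW g l k k' * gDel v g (l + 1) B k k' with hb
  have e2 : ((2 : ℝ) ^ ((3 : ℝ) / 4)) ^ 2 = (2 : ℝ) ^ ((3 : ℝ) / 2) := by
    rw [← Real.rpow_natCast, ← Real.rpow_mul (by norm_num)]
    norm_num
  have e3 : 8 / 3 ≤ (2 : ℝ) ^ ((3 : ℝ) / 2) := by
    have h : ((2 : ℝ) ^ ((3 : ℝ) / 2)) ^ 2 = 8 := by
      rw [← Real.rpow_natCast, ← Real.rpow_mul (by norm_num)]
      norm_num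
    have : 0 ≤ (2 : ℝ) ^ ((3 : ℝ) / 2) := by positivity
    nlinarith
  calc (gW g l k k' * (gDel v g (l + 1) A k k' + gDel v g (l + 1) B k k')) ^ 2
      = (a + b) ^ 2 := by rw [ha, hb]; ring
    _ ≤ 2 * (a ^ 2 + b ^ 2) := by nlinarith [sq_nonneg (a - b)]
    _ ≤ 3 / 4 * ((2 : ℝ) ^ ((3 : ℝ) / 2) * (a ^ 2 + b ^ 2)) := by
        nlinarith [sq_nonneg a, sq_nonneg b]
    _ = _ := by rw [← e2, ha, hb]; ring

/-- A small error gives the hypothesis of the tilt lemma. -/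
theorem gErr_tilt (v : Fin n → Fin D → ℝ) (g : Fin D → ℝ) (G : Finset (Fin D)) (l : ℕ)
    (F : Finset (Fin n)) (h1 : ∀ k ∈ G, 1 ≤ gh g l k) :
    ∑ k ∈ G, ∑ k' ∈ G, gDel v g l F k k' ^ 2 / (gh g l k * gh g l k') ≤ gErr v g G l F := by
  refine Finset.sum_le_sum fun k hk => Finset.sum_le_sum fun k' hk' => ?_
  have hp : (1 : ℝ) ≤ gh g l k * gh g l k' := by nlinarith [h1 k hk, h1 k' hk']
  rw [mul_pow, gW, ← Real.rpow_natCast ((gh g l k * gh g l k') ^ (-(3 : ℝ) / 8)) 2,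
    ← Real.rpow_mul (by linarith), mul_comm ((gh g l k * gh g l k') ^ (_ : ℝ)), div_eq_mul_inv]
  refine mul_le_mul_of_nonneg_left ?_ (sq_nonneg _)
  rw [← Real.rpow_neg_one]
  exact Real.rpow_le_rpow_of_exponent_le hp (by norm_num)

end Vale.Agent.P262.St
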