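import Mathlib
import Vale.Agent.P262.St.Gram

/-! P262, Steinitz: consequences of a small Gram error, and the side effects of a tilt. -/

namespace Vale.Agent.P262.St

open Finset

variable {D n : ℕ}

/-- The sum `∑ ĝ^(-1/4)` on `G` at level `l`. -/
noncomputable def gSmall (g : Fin D → ℝ) (G : Finset (Fin D)) (l : ℕ) : ℝ :=
  ∑ k ∈ G, gh g l k ^ (-(1 : ℝ) / 4)

theorem gSmall_nonneg {g : Fin D → ℝ} {G : Finset (Fin D)} {l : ℕ}
    (h1 : ∀ k ∈ G, 1 ≤ gh g l k) : 0 ≤ gSmall g G l :=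
  Finset.sum_nonneg fun k hk => Real.rpow_nonneg (le_trans zero_le_one (h1 k hk)) _

theorem gh_diag_le {v : Fin n → Fin D → ℝ} {g : Fin D → ℝ} {G : Finset (Fin D)} {l : ℕ}
    {F : Finset (Fin n)} (hE : gErr v g G l F ≤ 1 / 16) (h1 : ∀ k ∈ G, 1 ≤ gh g l k)
    {k : Fin D} (hk : k ∈ G) : ∑ i ∈ F, v i k ^ 2 ≤ (5 / 4) * gh g l k := by
  have h := h1 k hk
  have e : (gW g l k k * gDel v g l F k k) ^ 2 ≤ 1 / 16 :=
    le_trans (le_trans
      (Finset.single_le_sum (f := fun k' => (gW g l k k' * gDel v g l F k k') ^ 2)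
        (fun _ _ => sq_nonneg _) hk)
      (Finset.single_le_sum (f := fun k => ∑ k' ∈ G, (gW g l k k' * gDel v g l F k k') ^ 2)
        (fun _ _ => Finset.sum_nonneg fun _ _ => sq_nonneg _) hk)) hE
  have hw : (gh g l k)⁻¹ ≤ gW g l k k := by
    rw [gW, Real.mul_rpow (by linarith) (by linarith), ← Real.rpow_add (by linarith),
      ← Real.rpow_neg_one]
    exact Real.rpow_le_rpow_of_exponent_le h (by norm_num)
  have habs : |gW g l k k * gDel v g l F k k| ≤ 1 / 4 :=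
    abs_le_of_sq_le_sq (by linarith [e]) (by norm_num)
  have h2 : |gDel v g l F k k| ≤ gh g l k / 4 := by
    rw [abs_mul, abs_of_pos (gW_pos (by linarith) (by linarith))] at habs
    have h0 : 0 ≤ |gDel v g l F k k| := abs_nonneg _
    have hinv : (gh g l k)⁻¹ * |gDel v g l F k k| ≤ 1 / 4 :=
      le_trans (mul_le_mul_of_nonneg_right hw h0) habs
    rw [inv_mul_le_iff₀ (by linarith)] at hinv
    linarith
  have h3 := (abs_le.1 h2).2
  simp only [gDel, if_true, ← pow_two] at h3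
  linarith

/-- The budget of the Gram test. -/
theorem gram_budget {v : Fin n → Fin D → ℝ} {g : Fin D → ℝ} {G : Finset (Fin D)} {l : ℕ}
    {F : Finset (Fin n)} (hv : ∀ i, sq (v i) = 1) (hE : gErr v g G l F ≤ 1 / 16)
    (h1 : ∀ k ∈ G, 1 ≤ gh g l k) :
    ∑ k ∈ G, ∑ k' ∈ G, gW g l k k' ^ 2 * ∑ i ∈ F, v i k ^ 2 * v i k' ^ 2
      ≤ (5 / 4) * gSmall g G l ^ 2 := by
  have hv1 : ∀ i k, v i k ^ 2 ≤ 1 := fun i k => by
    rw [← hv i]
    exact Finset.single_le_sum (f := fun k => v i k ^ 2) (fun _ _ => sq_nonneg _) (Finset.mem_univ k)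
  rw [gSmall, pow_two (∑ k ∈ G, gh g l k ^ (-(1 : ℝ) / 4)), Finset.sum_mul_sum, Finset.mul_sum]
  refine Finset.sum_le_sum fun k hk => ?_
  rw [Finset.mul_sum]
  refine Finset.sum_le_sum fun k' hk' => ?_
  set S := ∑ i ∈ F, v i k ^ 2 * v i k' ^ 2 with hS
  have hp : 0 < gh g l k * gh g l k' :=
    mul_pos (lt_of_lt_of_le one_pos (h1 k hk)) (lt_of_lt_of_le one_pos (h1 k' hk'))
  have hS1 : S ≤ (5 / 4) * gh g l k := le_trans (Finset.sum_le_sum fun i _ =>
    mul_le_of_le_one_right (sq_nonneg _) (hv1 i k')) (gh_diag_le hE h1 hk)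
  have hS2 : S ≤ (5 / 4) * gh g l k' := le_trans (Finset.sum_le_sum fun i _ =>
    mul_le_of_le_one_left (sq_nonneg _) (hv1 i k)) (gh_diag_le hE h1 hk')
  have hS0 : 0 ≤ S := Finset.sum_nonneg fun i _ => mul_nonneg (sq_nonneg _) (sq_nonneg _)
  have hS3 : S ≤ (5 / 4) * (gh g l k * gh g l k') ^ ((1 : ℝ) / 2) := by
    rw [← Real.sqrt_eq_rpow]
    have h4 : S ^ 2 ≤ (5 / 4) ^ 2 * (gh g l k * gh g l k') := by
      have := mul_le_mul hS1 hS2 hS0 (by nlinarith [h1 k hk])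
      nlinarith
    have h5 := Real.sqrt_le_sqrt h4
    rw [Real.sqrt_sq hS0, Real.sqrt_mul (by norm_num), Real.sqrt_sq (by norm_num)] at h5
    exact h5
  refine le_trans (mul_le_mul_of_nonneg_left hS3 (sq_nonneg _)) (le_of_eq ?_)
  rw [gW, ← Real.rpow_natCast, ← Real.rpow_mul hp.le, mul_left_comm,
    ← Real.rpow_add hp, ← Real.mul_rpow (by linarith [h1 k hk]) (by linarith [h1 k' hk'])]
  norm_num

/-- One item costs little in the Gram test. -/
theorem gram_item {v : Fin n → Fin D → ℝ} {g : Fin D → ℝ} {G : Finset (Fin D)} {l : ℕ}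
    (hv : ∀ i, sq (v i) = 1) (h1 : ∀ k ∈ G, 1 ≤ gh g l k) (i : Fin n) :
    ∑ k ∈ G, ∑ k' ∈ G, gW g l k k' ^ 2 * (v i k ^ 2 * v i k' ^ 2) ≤ gSmall g G l ^ 2 := by
  have hv1 : ∀ k, v i k ^ 2 ≤ 1 := fun k => by
    rw [← hv i]
    exact Finset.single_le_sum (f := fun k => v i k ^ 2) (fun _ _ => sq_nonneg _) (Finset.mem_univ k)
  rw [gSmall, pow_two (∑ k ∈ G, gh g l k ^ (-(1 : ℝ) / 4)), Finset.sum_mul_sum]
  refine Finset.sum_le_sum fun k hk => Finset.sum_le_sum fun k' hk' => ?_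
  have hp : 1 ≤ gh g l k * gh g l k' := by nlinarith [h1 k hk, h1 k' hk']
  rw [← Real.mul_rpow (by linarith [h1 k hk]) (by linarith [h1 k' hk'])]
  refine le_trans (mul_le_of_le_one_right (sq_nonneg _) ?_) ?_
  · exact mul_le_one₀ (hv1 k) (sq_nonneg _) (hv1 k')
  · rw [gW, ← Real.rpow_natCast, ← Real.rpow_mul (by linarith)]
    exact Real.rpow_le_rpow_of_exponent_le hp (by norm_num)

/-- A tilt changes the Gram matrix little. -/
theorem tilt_gram (v : Fin n → Fin D → ℝ) (g : Fin D → ℝ) (G : Finset (Fin D)) (l : ℕ)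
    (F : Finset (Fin n)) (x : Fin n → ℝ) :
    ∑ k ∈ G, ∑ k' ∈ G, (gW g l k k' * ∑ i ∈ F, x i * (v i k * v i k')) ^ 2
      ≤ (∑ i ∈ F, x i ^ 2) *
        ∑ k ∈ G, ∑ k' ∈ G, gW g l k k' ^ 2 * ∑ i ∈ F, v i k ^ 2 * v i k' ^ 2 := by
  simp only [Finset.mul_sum (s := G)]
  refine Finset.sum_le_sum fun k _ => Finset.sum_le_sum fun k' _ => ?_
  rw [mul_pow, mul_left_comm]
  refine mul_le_mul_of_nonneg_left ?_ (sq_nonneg _)
  refine le_trans (Finset.sum_mul_sq_le_sq_mul_sq F x (fun i => v i k * v i k')) (le_of_eq ?_)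
  simp only [mul_pow]

/-- Shift by the trace. -/
theorem tilt_trace (v : Fin n → Fin D → ℝ) (F : Finset (Fin n)) (x : Fin n → ℝ)
    (Z : Finset (Fin D)) (w : Fin D → ℝ) (hw : ∀ k ∈ Z, 0 ≤ w k) :
    ∑ k ∈ Z, w k * (∑ i ∈ F, x i * v i k) ^ 2
      ≤ (∑ i ∈ F, x i ^ 2) * ∑ i ∈ F, ∑ k ∈ Z, w k * v i k ^ 2 := by
  rw [Finset.sum_comm (s := F) (t := Z), Finset.mul_sum (s := Z)]
  refine Finset.sum_le_sum fun k hk => ?_
  refine le_trans (mul_le_mul_of_nonneg_left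
    (Finset.sum_mul_sq_le_sq_mul_sq F x (fun i => v i k)) (hw k hk)) (le_of_eq ?_)
  rw [← Finset.mul_sum]
  ring

/-- Shift by the operator norm, where the Gram error is small. -/
theorem tilt_op {v : Fin n → Fin D → ℝ} {g : Fin D → ℝ} {G : Finset (Fin D)} {l : ℕ}
    {F : Finset (Fin n)} (hE : gErr v g G l F ≤ 1 / 16) (h1 : ∀ k ∈ G, 1 ≤ gh g l k)
    (x : Fin n → ℝ) (Z : Finset (Fin D)) (hZ : Z ⊆ G) (R : ℝ) (hR0 : 0 ≤ R)
    (hR : ∀ k ∈ Z, gh g l k ≤ R) :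
    ∑ k ∈ Z, (∑ i ∈ F, x i * v i k) ^ 2 ≤ (5 / 4) * R * ∑ i ∈ F, x i ^ 2 := by
  classical
  set y : Fin D → ℝ := fun k => ∑ i ∈ F, x i * v i k with hy
  set Y := ∑ k ∈ Z, y k ^ 2 with hY
  have hY0 : 0 ≤ Y := Finset.sum_nonneg fun _ _ => sq_nonneg _
  -- quadratic form on `Z`
  have hq : ∑ i ∈ F, (∑ k ∈ Z, v i k * y k) ^ 2 ≤ (5 / 4) * R * Y := by
    have e : ∑ i ∈ F, (∑ k ∈ Z, v i k * y k) ^ 2
        = ∑ k ∈ Z, gh g l k * y k ^ 2 + ∑ p ∈ Z ×ˢ Z, gDel v g l F p.1 p.2 * (y p.1 * y p.2) := by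
      rw [Finset.sum_product, ← Finset.sum_add_distrib]
      simp only [pow_two, Finset.sum_mul_sum]
      rw [Finset.sum_comm]
      refine Finset.sum_congr rfl fun k hk => ?_
      rw [Finset.sum_comm]
      have hd : gh g l k * (y k * y k) = ∑ k' ∈ Z, (if k = k' then gh g l k else 0) * (y k * y k') := by
        rw [Finset.sum_eq_single_of_mem k hk]
        · rw [if_pos rfl]
        · intro k' _ h
          rw [if_neg (Ne.symm h), zero_mul]
      rw [hd, ← Finset.sum_add_distrib]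
      refine Finset.sum_congr rfl fun k' _ => ?_
      rw [gDel, ← add_mul, add_sub_cancel, Finset.sum_mul]
      refine Finset.sum_congr rfl fun i _ => ?_
      ring
    have h2 : ∑ p ∈ Z ×ˢ Z, (gDel v g l F p.1 p.2) ^ 2 / (gh g l p.1 * gh g l p.2) ≤ 1 / 16 := by
      rw [Finset.sum_product]
      exact le_trans (gErr_tilt v g Z l F fun k hk => h1 k (hZ hk))
        (le_trans (gErr_mono v g hZ l F) hE)
    have hCS : (∑ p ∈ Z ×ˢ Z, gDel v g l F p.1 p.2 * (y p.1 * y p.2)) ^ 2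
        ≤ (∑ p ∈ Z ×ˢ Z, (gDel v g l F p.1 p.2) ^ 2 / (gh g l p.1 * gh g l p.2)) *
          (∑ k ∈ Z, gh g l k * y k ^ 2) ^ 2 := by
      rw [pow_two (∑ k ∈ Z, gh g l k * y k ^ 2), Finset.sum_mul_sum, ← Finset.sum_product']
      refine Finset.sum_sq_le_sum_mul_sum_of_sq_le_mul _ ?_ ?_ ?_
      · intro p hp
        obtain ⟨hp1, hp2⟩ := Finset.mem_product.1 hp
        exact div_nonneg (sq_nonneg _) (mul_nonneg (le_trans zero_le_one (h1 _ (hZ hp1)))
          (le_trans zero_le_one (h1 _ (hZ hp2))))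
      · intro p hp
        obtain ⟨hp1, hp2⟩ := Finset.mem_product.1 hp
        exact mul_nonneg (mul_nonneg (le_trans zero_le_one (h1 _ (hZ hp1))) (sq_nonneg _))
          (mul_nonneg (le_trans zero_le_one (h1 _ (hZ hp2))) (sq_nonneg _))
      · intro p hp
        obtain ⟨hp1, hp2⟩ := Finset.mem_product.1 hp
        have a1 := lt_of_lt_of_le one_pos (h1 _ (hZ hp1))
        have a2 := lt_of_lt_of_le one_pos (h1 _ (hZ hp2))
        exact le_of_eq (by field_simp)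
    set X := ∑ k ∈ Z, gh g l k * y k ^ 2 with hX
    have hX0 : 0 ≤ X := Finset.sum_nonneg fun k hk =>
      mul_nonneg (le_trans zero_le_one (h1 k (hZ hk))) (sq_nonneg _)
    have hXR : X ≤ R * Y := by
      rw [hY, Finset.mul_sum]
      exact Finset.sum_le_sum fun k hk => mul_le_mul_of_nonneg_right (hR k hk) (sq_nonneg _)
    rw [e]
    have h3 := (abs_le.1 (abs_le_of_sq_le_sq (b := X / 4) (by nlinarith) (by linarith))).2
    nlinarith [h3]
  -- `Y = ∑ x (v·y)`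
  have hYe : Y = ∑ i ∈ F, x i * ∑ k ∈ Z, v i k * y k := by
    simp only [hY, pow_two, Finset.mul_sum]
    rw [Finset.sum_comm]
    refine Finset.sum_congr rfl fun k _ => ?_
    conv_lhs => rw [show y k * y k = (∑ i ∈ F, x i * v i k) * y k from rfl, Finset.sum_mul]
    exact Finset.sum_congr rfl fun i _ => by ring
  have h4 := Finset.sum_mul_sq_le_sq_mul_sq F x (fun i => ∑ k ∈ Z, v i k * y k)
  rw [← hYe] at h4
  set P := ∑ i ∈ F, x i ^ 2
  have hP : 0 ≤ P := Finset.sum_nonneg fun _ _ => sq_nonneg _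
  by_contra hc
  push Not at hc
  have hc' : (5 / 4) * R * P < Y := hc
  have hYp : 0 < Y := lt_of_le_of_lt (by positivity) hc'
  have : P * ((5 / 4) * R * Y) < Y * Y := by
    have := mul_lt_mul_of_pos_right hc' hYp
    linarith
  nlinarith [mul_le_mul_of_nonneg_left hq hP]

end Vale.Agent.P262.St
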