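import Mathlib
import Vale.Agent.P262.St.Interface
import Vale.Agent.P262.St.Shift

/-! P262, Steinitz: the objects of one step of the recursion and the statements of its modules.
Only definitions and propositions; nothing is assumed. See `PROOF.md`. -/

namespace Vale.Agent.P262.St

open Finset
open Classical

variable {D n : ℕ}

/-- Normalised input: unit vectors with sum `0` and Gram matrix `diag g`. -/
structure Fam (D n : ℕ) where
  v : Fin n → Fin D → ℝ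
  g : Fin D → ℝ
  s : Fin D → ℤ
  unit : ∀ i, sq (v i) = 1
  sum0 : ∀ k, ∑ i, v i k = 0
  gram : ∀ k k', ∑ i, v i k * v i k' = if k = k' then g k else 0
  s_ge : ∀ k, -1 ≤ s k
  g_lt : ∀ k, g k < (2 : ℝ) ^ (s k + 1)
  g_ge : ∀ k, 0 ≤ s k → (2 : ℝ) ^ (s k) ≤ g k

/-- A weighted squared norm. -/
def qn (w c : Fin D → ℝ) : ℝ := ∑ k, w k * c k ^ 2

/-- The sum of the items in `F`. -/
def vsum (v : Fin n → Fin D → ℝ) (F : Finset (Fin n)) : Fin D → ℝ := fun k => ∑ i ∈ F, v i k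

/-- Indicator of a set of coordinates. -/
noncomputable def ind (Z : Finset (Fin D)) : Fin D → ℝ := fun k => if k ∈ Z then 1 else 0

/-- Weak age of a coordinate at step `t`. -/
noncomputable def age (s : Fin D → ℤ) (t : ℕ) (k : Fin D) : ℕ :=
  ((range t).filter fun t' => s k < (lv s t' : ℤ)).card

/-- Weights of the weak coordinates at step `t`. -/
noncomputable def wgt (s : Fin D → ℤ) (t : ℕ) (k : Fin D) : ℝ :=
  if s k < (lv s t : ℤ) then (5 / 4 : ℝ) ^ age s t k else 0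

/-- Exponentially small weights on the absorbed coordinates. -/
noncomputable def onW (J0 : ℕ) (s : Fin D → ℤ) (t : ℕ) (k : Fin D) : ℝ :=
  if k ∈ Sset J0 s t then (2 : ℝ) ^ (-((s k - top s t : ℝ) / 4)) else 0

/-- The weight used by the sign test on the absorbed coordinates in step `t`. -/
noncomputable def sigW (s : Fin D → ℤ) (t : ℕ) (u : ℤ) : ℝ :=
  (2 : ℝ) ^ (-((u - top s (t + 1) : ℝ) / 4))

/-- `sigW` on the absorbed coordinates. -/
noncomputable def sigS (J0 : ℕ) (s : Fin D → ℤ) (t : ℕ) (k : Fin D) : ℝ :=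
  if k ∈ Sset J0 s t then sigW s t (s k) else 0

/-- Band coordinates which are not absorbed. -/
noncomputable def bnSet (J0 : ℕ) (s : Fin D → ℤ) (t : ℕ) : Finset (Fin D) :=
  Bset J0 s t \ Sset J0 s t

/-- Absorbed coordinates inside the band. -/
noncomputable def stSet (J0 : ℕ) (s : Fin D → ℤ) (t : ℕ) : Finset (Fin D) :=
  Bset J0 s t ∩ Sset J0 s t

/-- Absorbed coordinates which lie below the band top of the next step. -/
noncomputable def nxSet (J0 : ℕ) (s : Fin D → ℤ) (t : ℕ) : Finset (Fin D) :=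
  (Sset J0 s t).filter fun k => s k < (th J0 s 5 (top s (t + 1)) : ℤ)

/-- The potential weights. -/
noncomputable def lam (J0 : ℕ) (s : Fin D → ℤ) (t : ℕ) (k : Fin D) : ℝ :=
  (1 / 2 : ℝ) ^ ((range t).filter fun t' => k ∈ Bset J0 s t').card *
    ∏ t' ∈ (range t).filter (fun t' => s k < (lv s t' : ℤ)), (1 + (4 / 5 : ℝ) ^ age s t' k)⁻¹

/-- The potential weights off the absorbed set. -/
noncomputable def vW (J0 : ℕ) (s : Fin D → ℤ) (t : ℕ) (k : Fin D) : ℝ :=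
  if k ∈ Sset J0 s t then 0 else lam J0 s t k

/-- Budget of the steps near `t`. -/
noncomputable def Uw (J0 A : ℕ) (s : Fin D → ℤ) (t : ℕ) : ℝ :=
  ∑ t' ∈ Icc (t - A) (t + 1), Uf J0 s t'

/-- Bound for the weak trace. -/
noncomputable def psi (J0 A : ℕ) (C : ℝ) (s : Fin D → ℤ) : ℕ → ℝ
  | 0 => (univ.filter fun k => s k < 0).card
  | t + 1 => 9 / 10 * psi J0 A C s t + C * Uw J0 A s t

/-- Bound for the potential of a boundary. -/
noncomputable def acc (J0 A : ℕ) (C C' : ℝ) (s : Fin D → ℤ) : ℕ → ℝ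
  | 0 => 0
  | t + 1 => acc J0 A C C' s t + C' * (Uw J0 A s t + psi J0 A C s t)

/-- Weighted weak trace of a set of items. -/
noncomputable def phiSum (s : Fin D → ℤ) (t : ℕ) (v : Fin n → Fin D → ℝ) (F : Finset (Fin n)) : ℝ :=
  ∑ i ∈ F, qn (wgt s t) (v i)

/-- Trace at one exponent. -/
noncomputable def trSum (s : Fin D → ℤ) (v : Fin n → Fin D → ℝ) (u : ℤ) (F : Finset (Fin n)) : ℝ :=
  ∑ i ∈ F, ∑ k ∈ univ.filter (fun k => s k = u), v i k ^ 2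

/-- Number of tests in the passes. -/
noncomputable def neT (J0 : ℕ) (s : Fin D → ℤ) (t : ℕ) : ℕ := th J0 s 1 (top s t) - lv s t

/-- The rounding quantity of the passes. -/
noncomputable def qq (J0 : ℕ) (s : Fin D → ℤ) (t : ℕ) : ℝ :=
  (2 : ℝ) ^ mj s (lv s t) * (neT J0 s t + 6)

/-- Steps in which exponent `u` had a trace test. -/
noncomputable def trSteps (J0 : ℕ) (s : Fin D → ℤ) (t : ℕ) (u : ℤ) : Finset ℕ :=
  (range t).filter fun t' => (lv s t' : ℤ) ≤ u ∧ u < (th J0 s 1 (top s t') : ℤ)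

/-- Bound for the trace at exponent `u` at the start of step `t`. -/
noncomputable def trB (J0 : ℕ) (C : ℝ) (s : Fin D → ℤ) (t : ℕ) (u : ℤ) : ℝ :=
  C * 32 ^ (trSteps J0 s t u).card *
    ((univ.filter fun k => s k = u).card * (2 : ℝ) ^ (u - lv s t) +
      ∑ t' ∈ trSteps J0 s t u, qq J0 s t')

/-- Everything the step uses about the schedule. `η` is as small as we like, `A` and `Cq` depend on
`J0` only. -/
structure Margins (J0 A : ℕ) (Cq η : ℝ) (s : Fin D → ℤ) : Prop where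
  one_le : 1 ≤ Cq
  th_mono : ∀ c, Monotone (th J0 s c)
  th_ge : ∀ c l, c ≤ 5 → l + c * Pf J0 s l ≤ th J0 s c l
  th13 : ∀ l, th J0 s 1 l ≤ th J0 s 3 l
  th35 : ∀ l, th J0 s 3 l ≤ th J0 s 5 l
  band_steps : ∀ k T, ((range T).filter fun t => k ∈ Bset J0 s t).card ≤ A
  sumU : ∀ T, ∑ t ∈ range T, Uf J0 s t ≤ Cq * D
  qq_le : ∀ t, (Bset J0 s t).Nonempty → qq J0 s t ^ 2 ≤ Cq * Uf J0 s t
  gram_small : ∀ (g : Fin D → ℝ), (∀ k, 0 ≤ s k → (2 : ℝ) ^ (s k) ≤ g k) →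
    ∀ t, gSmall g (Gset J0 s t) (top s t) ^ 2 * qq J0 s t ^ 2 ≤ η
  sig_small : ∀ t, ((2 : ℝ) ^ mj s (lv s t)) ^ 2 * ∑ k ∈ Sset J0 s t, sigW s t (s k) *
    ((Bset J0 s t).card + (univ.filter fun k' => (th J0 s 3 (top s t) : ℤ) ≤ s k' ∧ s k' ≤ s k).card
      + qq J0 s t ^ 2) ≤ η
  high_shift : ∀ t, ∀ k ∈ Sset J0 s t, (th J0 s 5 (top s t) : ℤ) ≤ s k →
    (2 : ℝ) ^ ((th J0 s 3 (top s t) : ℤ) - s k) ≤ Cq * onW J0 s t k
  low_shift : ∀ t, ∀ k ∈ Sset J0 s t, ∀ u : ℤ, u < (th J0 s 1 (top s t) : ℤ) →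
    (2 : ℝ) ^ ((top s t : ℤ) - s k) * (2 : ℝ) ^ (u - lv s t) ≤ Cq * onW J0 s t k

/-- Module 1b: the margins follow from the schedule facts. -/
def MarginsExist : Prop :=
  SchedFacts → ∀ η : ℝ, 0 < η → ∃ (J0 A : ℕ) (Cq : ℝ), 1 ≤ J0 ∧
    ∀ (D : ℕ) (s : Fin D → ℤ), (∀ k, -1 ≤ s k) → Margins J0 A Cq η s

/-- A position near the convex set of admissible positions: `Xs` is the shift which must also be
admissible. -/
def Near (J0 A : ℕ) (s : Fin D → ℤ) (t : ℕ) (Acc Ψ r : ℝ) (Xs q : Fin D → ℝ) : Prop :=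
  ∃ z : Fin D → ℝ, qn (vW J0 s t) z ≤ Acc ∧ qn (vW J0 s t) (z + Xs) ≤ Acc ∧
    qn (ind (bnSet J0 s t)) (q - z) ≤ r * Uw J0 A s t ∧ qn (wgt s t) (q - z) ≤ r * Ψ

/-- A position inside a step. -/
structure Pos (J0 A : ℕ) (s : Fin D → ℤ) (t : ℕ) (Acc Ψ r : ℝ) (Xs q : Fin D → ℝ) : Prop where
  on : qn (onW J0 s t) q ≤ 1 / 256
  strip : qn (ind (stSet J0 s t)) q ≤ r * Uw J0 A s t
  near : Near J0 A s t Acc Ψ r Xs q

/-- Module 5: one split of a segment from `a` to `b` with free items `F` and a centred list `X`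
to be inserted at the new point `p`. -/
def SplitOk : Prop :=
  ∃ c : ℝ, 1 ≤ c ∧ ∀ (D n : ℕ) (P : Fam D n) (J0 A : ℕ) (Cq η : ℝ),
    Margins J0 A Cq η P.s → 0 < η → η ≤ 1 / 64 →
    ∀ (t l : ℕ) (F X : Finset (Fin n)) (a b : Fin D → ℝ) (Ψ ε r : ℝ),
    lv P.s t ≤ l → l + 1 ≤ top P.s t → 0 < ε → 0 ≤ r →
    b = a + vsum P.v F + vsum P.v X →
    gErr P.v P.g (Gset J0 P.s t) l F ≤ 1 / 16 →
    qn (onW J0 P.s t) a ≤ 1 / 256 → qn (onW J0 P.s t) b ≤ 1 / 256 →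
    qn (ind (stSet J0 P.s t)) a ≤ r * Uw J0 A P.s t →
    qn (ind (stSet J0 P.s t)) b ≤ r * Uw J0 A P.s t →
    (∀ k ∈ Sset J0 P.s t, (2 : ℝ) ^ ((top P.s t : ℤ) - P.s k) *
      (∑ i ∈ F, ∑ k' ∈ bnSet J0 P.s t \ Gset J0 P.s t, P.v i k' ^ 2)
        ≤ r * Uw J0 A P.s t * onW J0 P.s t k) →
    phiSum P.s t P.v F ≤ Ψ →
    ∃ F₁ ⊆ F,
      let e := a + vsum P.v F₁ + (1 / 2 : ℝ) • vsum P.v X
      qn (sigS J0 P.s t) e ≤ c * η ∧
      qn (ind (stSet J0 P.s t)) e ≤ c * Cq * Uw J0 A P.s t ∧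
      qn (ind (nxSet J0 P.s t)) e ≤ c * Cq * Uw J0 A P.s t ∧
      qn (ind (bnSet J0 P.s t)) (e - (1 / 2 : ℝ) • (a + b)) ≤ c * (Cq * (1 + r)) * Uw J0 A P.s t ∧
      qn (wgt P.s t) (e - (1 / 2 : ℝ) • (a + b)) ≤ c * Ψ ∧
      gErr P.v P.g (Gset J0 P.s t) (l + 1) F₁
        ≤ 85 / 100 * gErr P.v P.g (Gset J0 P.s t) l F + c * η ∧
      gErr P.v P.g (Gset J0 P.s t) (l + 1) (F \ F₁)
        ≤ 85 / 100 * gErr P.v P.g (Gset J0 P.s t) l F + c * η ∧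
      ((∀ i ∈ F, qn (wgt P.s t) (P.v i) ≤ ε * Ψ) →
        phiSum P.s t P.v F₁ ≤ phiSum P.s t P.v F / 2 + c * (Real.sqrt ε + ε) * Ψ ∧
        phiSum P.s t P.v (F \ F₁) ≤ phiSum P.s t P.v F / 2 + c * (Real.sqrt ε + ε) * Ψ)

/-- Module 6: the passes on a segment. `pc i` is the piece of the item `i`. -/
def PassOk : Prop :=
  ∃ c : ℝ, 1 ≤ c ∧ ∀ (D n : ℕ) (P : Fam D n) (J0 A : ℕ) (Cq η : ℝ),
    Margins J0 A Cq η P.s → 0 < η → η ≤ 1 / 64 →
    ∀ (t l : ℕ) (F : Finset (Fin n)),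
    lv P.s t ≤ l → l + mj P.s (lv P.s t) ≤ top P.s t →
    gErr P.v P.g (Gset J0 P.s t) l F ≤ 1 / 16 → c * η ≤ 1 / 16 →
    ∃ pc : Fin n → ℕ, (∀ i, pc i < 2 ^ mj P.s (lv P.s t)) ∧
      (∀ j ≤ 2 ^ mj P.s (lv P.s t),
        let e := vsum P.v (F.filter fun i => pc i < j) -
          ((j : ℝ) / 2 ^ mj P.s (lv P.s t)) • vsum P.v F
        qn (sigS J0 P.s t) e ≤ c * η ∧
        qn (ind (Bset J0 P.s t)) e ≤ c * Cq * Uw J0 A P.s t ∧
        qn (wgt P.s t) e ≤ c * phiSum P.s t P.v F) ∧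
      ∀ j < 2 ^ mj P.s (lv P.s t),
        gErr P.v P.g (Gset J0 P.s t) (l + mj P.s (lv P.s t)) (F.filter fun i => pc i = j)
          ≤ max (gErr P.v P.g (Gset J0 P.s t) l F) (c * η) ∧
        ∀ u : ℤ, (lv P.s t : ℤ) ≤ u → u < (th J0 P.s 1 (top P.s t) : ℤ) →
          trSum P.s P.v u (F.filter fun i => pc i = j)
            ≤ 2 * trSum P.s P.v u F / 2 ^ mj P.s (lv P.s t) + c * qq J0 P.s t

end Vale.Agent.P262.St
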