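import Vale.Agent.P262.St.Defs

/-! P262 St, module 1: elementary properties of `wt`, `Nf`, `lg`, `lv` and `th`. -/

namespace Vale.Agent.P262.St

open Finset

variable {D : ℕ}

lemma wt_nonneg (j : ℤ) : 0 ≤ wt j := by unfold wt; positivity

lemma Nf_nonneg (s : Fin D → ℤ) (l : ℕ) : 0 ≤ Nf s l := sum_nonneg fun _ _ => wt_nonneg _

lemma Nf_regular (s : Fin D → ℤ) (a b : ℕ) : Nf s a ≤ (1 + |(a : ℝ) - b|) ^ 2 * Nf s b := by
  rw [Nf, Nf, mul_sum]
  refine sum_le_sum fun k _ => ?_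
  simp only [wt]
  push_cast
  rw [mul_one_div, div_le_div_iff₀ (by positivity) (by positivity), one_mul, ← mul_pow]
  refine pow_le_pow_left₀ (by positivity) ?_ 2
  have h := abs_sub_le (s k : ℝ) a b
  nlinarith [mul_nonneg (abs_nonneg ((a : ℝ) - b)) (abs_nonneg ((s k : ℝ) - a))]

lemma card_window_le (s : Fin D → ℤ) (l j : ℕ) :
    ((univ.filter fun k => (l : ℤ) ≤ s k ∧ s k < ((l + j : ℕ) : ℤ)).card : ℝ)
      ≤ Nf s l * (1 + (j : ℝ)) ^ 3 := by
  refine le_trans ?_ (mul_le_mul_of_nonneg_left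
    (pow_le_pow_right₀ (show (1 : ℝ) ≤ 1 + j by simp) (show 2 ≤ 3 by norm_num)) (Nf_nonneg s l))
  rw [← div_le_iff₀ (by positivity), Nf]
  set F := univ.filter fun k => (l : ℤ) ≤ s k ∧ s k < ((l + j : ℕ) : ℤ) with hF
  calc (F.card : ℝ) / (1 + (j : ℝ)) ^ 2 = ∑ _k ∈ F, 1 / (1 + (j : ℝ)) ^ 2 := by
        simp [div_eq_mul_inv]
    _ ≤ ∑ k ∈ F, wt (s k - l) := by
        refine sum_le_sum fun k hk => ?_
        obtain ⟨h1, h2⟩ := (mem_filter.mp hk).2
        have h1' : (l : ℝ) ≤ (s k : ℝ) := by exact_mod_cast h1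
        have h2' : (s k : ℝ) ≤ (l : ℝ) + j := by exact_mod_cast h2.le
        simp only [wt]
        push_cast
        rw [abs_of_nonneg (sub_nonneg.mpr h1')]
        exact one_div_le_one_div_of_le (by positivity) (pow_le_pow_left₀ (by linarith) (by linarith) 2)
    _ ≤ ∑ k, wt (s k - l) := sum_le_univ_sum_of_nonneg fun k => wt_nonneg _

lemma sum_nat_wt_le (S : Finset ℕ) : ∑ n ∈ S, 1 / (1 + (n : ℝ)) ^ 2 ≤ 2 := by
  have h : ∀ M : ℕ, ∑ n ∈ range M, 1 / (1 + (n : ℝ)) ^ 2 ≤ (2 : ℝ) - 2 / ((M : ℝ) + 1) := by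
    intro M
    induction M with
    | zero => simp
    | succ M ih =>
      rw [sum_range_succ]
      push_cast
      have e : (0 : ℝ) < M + 1 := by positivity
      have key : 1 / (1 + (M : ℝ)) ^ 2 ≤ 2 / (M + 1) - 2 / ((M : ℝ) + 1 + 1) := by
        rw [div_sub_div _ _ e.ne' (by positivity),
          div_le_div_iff₀ (by positivity) (by positivity)]
        nlinarith
      linarith
  have hsub : S ⊆ range (S.sup id + 1) := fun n hn =>
    mem_range.mpr (Nat.lt_succ_of_le (le_sup (f := id) hn))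
  refine (sum_le_sum_of_subset_of_nonneg hsub fun n _ _ => by positivity).trans ((h _).trans ?_)
  simp only [sub_le_self_iff]
  positivity

lemma sum_wt_le (a : ℤ) (S : Finset ℕ) : ∑ l ∈ S, wt (a - l) ≤ 4 := by
  rw [← sum_filter_add_sum_filter_not S (fun l : ℕ => (l : ℤ) ≤ a)]
  have key : ∀ (F : Finset ℕ) (f : ℕ → ℕ), Set.InjOn f F → (∀ l ∈ F, |a - (l : ℤ)| = f l) →
      ∑ l ∈ F, wt (a - l) ≤ 2 := by
    intro F f hf he
    refine le_trans (le_of_eq ?_) (sum_nat_wt_le (F.image f))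
    rw [sum_image hf]
    refine sum_congr rfl fun l hl => ?_
    rw [wt]
    have e := congrArg (fun z : ℤ => (z : ℝ)) (he l hl)
    push_cast at e ⊢
    rw [e]
  have h1 := key (S.filter fun l : ℕ => (l : ℤ) ≤ a) (fun l => (a - l).toNat)
    (fun x hx y hy h => by
      simp only [coe_filter, Set.mem_ofPred_eq] at hx hy
      simp only at h
      omega)
    (fun l hl => by
      have := (mem_filter.mp hl).2
      rw [abs_of_nonneg (by omega), Int.toNat_of_nonneg (by omega)])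
  have h2 := key (S.filter fun l : ℕ => ¬(l : ℤ) ≤ a) (fun l => ((l : ℤ) - a).toNat)
    (fun x hx y hy h => by
      simp only [coe_filter, Set.mem_ofPred_eq] at hx hy
      simp only at h
      omega)
    (fun l hl => by
      have := (mem_filter.mp hl).2
      rw [abs_of_nonpos (by omega), neg_sub, Int.toNat_of_nonneg (by omega)])
  linarith

lemma lv_strictMono (s : Fin D → ℤ) : StrictMono (lv s) :=
  strictMono_nat_of_lt_succ fun t => by rw [lv]; omega

lemma sum_Nf_lv_le (s : Fin D → ℤ) (T : ℕ) : ∑ t ∈ range T, Nf s (lv s t) ≤ 4 * D := by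
  simp only [Nf]
  rw [sum_comm]
  refine (sum_le_sum fun k _ => ?_ : _ ≤ ∑ _k : Fin D, (4 : ℝ)).trans_eq (by simp [mul_comm])
  rw [← sum_image (f := fun l : ℕ => wt (s k - l)) ((lv_strictMono s).injective.injOn)]
  exact sum_wt_le _ _

lemma two_pow_lg_le (s : Fin D → ℤ) (l : ℕ) : (2 : ℝ) ^ lg s l ≤ Nf s l + 2 := by
  have h := Nat.pow_log_le_self 2 (Nat.succ_ne_zero ⌈Nf s l⌉₊)
  have h' : ((2 ^ lg s l : ℕ) : ℝ) ≤ ((⌈Nf s l⌉₊ + 1 : ℕ) : ℝ) := by exact_mod_cast h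
  push_cast at h'
  linarith [Nat.ceil_lt_add_one (Nf_nonneg s l)]

lemma Nf_le_two_pow_lg (s : Fin D → ℤ) (l : ℕ) : Nf s l + 2 ≤ (2 : ℝ) ^ (lg s l + 2) := by
  have h := Nat.lt_pow_succ_log_self (by norm_num : 1 < 2) (⌈Nf s l⌉₊ + 1)
  have h' : ((⌈Nf s l⌉₊ + 1 + 1 : ℕ) : ℝ) ≤ ((2 ^ (lg s l + 1) : ℕ) : ℝ) :=
    Nat.cast_le.mpr h
  push_cast at h'
  rw [pow_succ _ (lg s l + 1)]
  linarith [Nat.le_ceil (Nf s l), show (1 : ℝ) ≤ 2 ^ (lg s l + 1) from one_le_pow₀ one_le_two]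

/-- A crude binary length. -/
def blen (n : ℕ) : ℕ := Nat.log 2 (n + 1) + 1

lemma blen_le (n : ℕ) : blen n ≤ n + 2 := by
  have := Nat.log_le_self 2 (n + 1)
  simp only [blen]
  omega

lemma mul_blen_le (c n : ℕ) : c * blen n ≤ n + 1 + (c * c + c) := by
  have key : ∀ k, c * (k + 1) ≤ 2 ^ k + (c * c + c) := by
    intro k
    induction k with
    | zero => have := Nat.zero_le (c * c); omega
    | succ k ih =>
      rcases lt_or_ge k c with hk | hk
      · have := Nat.two_pow_pos k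
        have := Nat.mul_le_mul_left c (show k + 1 + 1 ≤ c + 1 by omega)
        have e : c * (c + 1) = c * c + c := by ring
        omega
      · have := (Nat.lt_two_pow_self (n := k))
        have e : c * (k + 1 + 1) = c * (k + 1) + c := by ring
        rw [e, pow_succ]
        omega
  refine (key _).trans ?_
  have := Nat.pow_log_le_self 2 (show n + 1 ≠ 0 by omega)
  omega

lemma lg_le_lg (s : Fin D → ℤ) (a b n : ℕ) (h1 : a ≤ b + n) (h2 : b ≤ a + n) :
    lg s a ≤ lg s b + 2 + 2 * blen n := by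
  rw [← Nat.pow_le_pow_iff_right (by norm_num : 1 < 2)]
  suffices h : ((2 : ℝ) ^ lg s a) ≤ 2 ^ (lg s b + 2 + 2 * blen n) by exact_mod_cast h
  have hn : (1 : ℝ) + |(a : ℝ) - b| ≤ 2 ^ blen n := by
    have h3 : |(a : ℝ) - b| ≤ n := by
      have h1' : (a : ℝ) ≤ b + n := by exact_mod_cast h1
      have h2' : (b : ℝ) ≤ a + n := by exact_mod_cast h2
      rw [abs_le]
      constructor <;> linarith
    have h4 : ((n + 1 : ℕ) : ℝ) ≤ ((2 ^ blen n : ℕ) : ℝ) :=
      Nat.cast_le.mpr (Nat.lt_pow_succ_log_self (by norm_num : 1 < 2) (n + 1)).le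
    push_cast at h4
    linarith
  have h5 : (1 : ℝ) ≤ (1 + |(a : ℝ) - b|) ^ 2 :=
    one_le_pow₀ (le_add_of_nonneg_right (abs_nonneg _))
  calc (2 : ℝ) ^ lg s a ≤ Nf s a + 2 := two_pow_lg_le s a
    _ ≤ (1 + |(a : ℝ) - b|) ^ 2 * (Nf s b + 2) := by nlinarith [Nf_regular s a b]
    _ ≤ (2 ^ blen n) ^ 2 * 2 ^ (lg s b + 2) := mul_le_mul (pow_le_pow_left₀ (by positivity) hn 2)
        (Nf_le_two_pow_lg s b) (by linarith [Nf_nonneg s b]) (by positivity)
    _ = _ := by rw [← pow_mul, ← pow_add]; ring_nf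

lemma le_th (J0 : ℕ) (s : Fin D → ℤ) (c l : ℕ) : l + c * Pf J0 s l ≤ th J0 s c l :=
  le_sup (f := fun l' => l' + c * Pf J0 s l') (self_mem_range_succ l)

lemma th_mono (J0 : ℕ) (s : Fin D → ℤ) (c : ℕ) : Monotone (th J0 s c) :=
  fun _ _ h => sup_mono (range_mono (by omega))

lemma th_le (J0 : ℕ) (s : Fin D → ℤ) {c : ℕ} (hc : c ≤ 5) (l : ℕ) :
    th J0 s c l ≤ l + 2 * c * Pf J0 s l + (5120 * 5120 + 5120 + 5121) := by
  refine Finset.sup_le fun l' hl' => ?_
  have hl : l' ≤ l := by simpa [Nat.lt_succ_iff] using hl'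
  have h := lg_le_lg s l' l (l - l') (by omega) (by omega)
  have hk := mul_blen_le 5120 (l - l')
  simp only [Pf, pslope]
  interval_cases c <;> omega

lemma th_add_le (J0 : ℕ) (s : Fin D → ℤ) (c l : ℕ) :
    th J0 s c l + 2 * Pf J0 s l ≤ th J0 s (c + 2) l := by
  obtain ⟨l', hl', he⟩ := exists_mem_eq_sup (range (l + 1)) ⟨l, self_mem_range_succ l⟩
    (fun l' => l' + c * Pf J0 s l')
  rw [th, he]
  have hl : l' ≤ l := by simpa [Nat.lt_succ_iff] using hl'
  rcases le_total (Pf J0 s l) (Pf J0 s l') with h | h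
  · refine le_trans ?_ (le_sup (f := fun l' => l' + (c + 2) * Pf J0 s l') hl')
    simp only [Nat.add_mul]
    omega
  · refine le_trans ?_ (le_sup (f := fun l' => l' + (c + 2) * Pf J0 s l') (self_mem_range_succ l))
    have := Nat.mul_le_mul_left c h
    simp only [Nat.add_mul]
    omega

end Vale.Agent.P262.St
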