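import Vale.Agent.P262.St.Interface
import Vale.Agent.P262.St.SchedBasic

/-! P262 St, module 1: `schedFacts`. -/

namespace Vale.Agent.P262.St

open Finset Filter Topology
open Classical

variable {D : ℕ}

lemma mj_le_logb (s : Fin D → ℤ) (l : ℕ) : (mj s l : ℝ) ≤ Real.logb 2 (Nf s l + 2) / 8 := by
  have h1 : (lg s l : ℝ) ≤ Real.logb 2 (Nf s l + 2) := by
    rw [Real.le_logb_iff_rpow_le one_lt_two (by linarith [Nf_nonneg s l]), Real.rpow_natCast]
    exact two_pow_lg_le s l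
  have h2 : ((mj s l * 8 : ℕ) : ℝ) ≤ lg s l := by exact_mod_cast Nat.div_mul_le_self _ _
  push_cast at h2
  linarith

lemma two_pow_mj_le (s : Fin D → ℤ) (l : ℕ) :
    (2 : ℝ) ^ mj s l ≤ (Nf s l + 2) ^ ((1 : ℝ) / 8) := by
  have hN : 0 < Nf s l + 2 := by linarith [Nf_nonneg s l]
  calc (2 : ℝ) ^ mj s l = (2 : ℝ) ^ (mj s l : ℝ) := (Real.rpow_natCast _ _).symm
    _ ≤ (2 : ℝ) ^ (Real.logb 2 (Nf s l + 2) * (1 / 8)) :=
        Real.rpow_le_rpow_of_exponent_le one_le_two ((mj_le_logb s l).trans_eq (by ring))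
    _ = _ := by rw [Real.rpow_mul two_pos.le, Real.rpow_logb two_pos one_lt_two.ne' hN]

lemma poly_le_four_pow (k : ℕ) : (6 + k) ^ 6 ≤ 46656 * 4 ^ k := by
  induction k with
  | zero => norm_num
  | succ k ih =>
    have h : 6 ^ 6 * (6 + (k + 1)) ^ 6 ≤ (6 ^ 6 * 4) * (6 + k) ^ 6 := by
      calc 6 ^ 6 * (6 + (k + 1)) ^ 6 = (6 * (6 + (k + 1))) ^ 6 := (mul_pow _ _ _).symm
        _ ≤ (7 * (6 + k)) ^ 6 := Nat.pow_le_pow_left (by omega) 6
        _ = 7 ^ 6 * (6 + k) ^ 6 := mul_pow _ _ _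
        _ ≤ _ := Nat.mul_le_mul_right _ (by norm_num)
    rw [pow_succ 4 k]
    norm_num at h ⊢
    omega

lemma Nf_lv_le (s : Fin D → ℤ) (t : ℕ) :
    Nf s (lv s t) + 2 ≤ 46656 * (Nf s (top s t) + 2) ^ 3 := by
  set L := lg s (lv s t) with hL
  set X := Nf s (lv s t) + 2
  set Y := Nf s (top s t) + 2
  have hX : 0 < X := by linarith [Nf_nonneg s (lv s t)]
  have hd : |((lv s t : ℕ) : ℝ) - (top s t : ℕ)| ≤ ((5 + L : ℕ) : ℝ) := by
    have e : top s t = lv s t + (5 + mj s (lv s t)) := by simp [top, lv]; ring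
    rw [e]
    push_cast
    rw [sub_add_cancel_left, abs_neg, abs_of_nonneg (by positivity)]
    have : mj s (lv s t) ≤ L := Nat.div_le_self _ _
    have : (mj s (lv s t) : ℝ) ≤ L := by exact_mod_cast this
    linarith
  have h1 : X ≤ ((6 + L : ℕ) : ℝ) ^ 2 * Y := by
    have h := Nf_regular s (lv s t) (top s t)
    have h2 : (1 + |((lv s t : ℕ) : ℝ) - (top s t : ℕ)|) ^ 2 ≤ ((6 + L : ℕ) : ℝ) ^ 2 :=
      pow_le_pow_left₀ (by positivity) (by push_cast at hd ⊢; linarith) 2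
    have h3 := h.trans (mul_le_mul_of_nonneg_right h2 (Nf_nonneg _ _))
    have h4 : (1 : ℝ) ≤ ((6 + L : ℕ) : ℝ) ^ 2 := one_le_pow₀ (by push_cast; linarith [(L.cast_nonneg : (0:ℝ) ≤ L)])
    simp only [X, Y]
    nlinarith
  have h5 : ((6 + L : ℕ) : ℝ) ^ 6 ≤ 46656 * X ^ 2 := by
    calc ((6 + L : ℕ) : ℝ) ^ 6 ≤ 46656 * (4 : ℝ) ^ L := by exact_mod_cast poly_le_four_pow L
      _ = 46656 * ((2 : ℝ) ^ L) ^ 2 := by rw [← pow_mul, mul_comm L, pow_mul]; norm_num
      _ ≤ _ := mul_le_mul_of_nonneg_left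
          (pow_le_pow_left₀ (by positivity) (two_pow_lg_le s _) 2) (by norm_num)
  refine le_of_mul_le_mul_left ?_ (pow_pos hX 2)
  calc X ^ 2 * X = X ^ 3 := by ring
    _ ≤ (((6 + L : ℕ) : ℝ) ^ 2 * Y) ^ 3 := pow_le_pow_left₀ hX.le h1 3
    _ = ((6 + L : ℕ) : ℝ) ^ 6 * Y ^ 3 := by ring
    _ ≤ 46656 * X ^ 2 * Y ^ 3 := mul_le_mul_of_nonneg_right h5 (by
        have : 0 ≤ Y := by linarith [Nf_nonneg s (top s t)]
        positivity)
    _ = _ := by ring

/-- `F5`. -/
lemma master_sum (ε : ℝ) (hε : 0 < ε) : ∃ J₁ : ℕ, ∀ (D J0 : ℕ), J₁ ≤ J0 →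
    ∀ (s : Fin D → ℤ) (l : ℕ),
      ∑ k ∈ univ.filter (fun k => ((l + Pf J0 s l : ℕ) : ℤ) ≤ s k),
        (Nf s l + 2) ^ 20 * (1 + (s k - l : ℝ)) ^ 10 * (2 : ℝ) ^ (-((s k - l : ℝ) / 16)) ≤ ε := by
  set r : ℝ := (2 : ℝ) ^ (-(5 / 256) : ℝ) with hr
  have hr0 : 0 < r := Real.rpow_pos_of_pos two_pos _
  have hr1 : r < 1 := Real.rpow_lt_one_of_one_lt_of_neg one_lt_two (by norm_num)
  obtain ⟨C, hC⟩ := (tendsto_pow_const_mul_const_pow_of_abs_lt_one 12
    (show |r| < 1 by rw [abs_of_pos hr0]; exact hr1)).bddAbove_range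
  set C' := max 0 (C / r) with hC'
  have hCj : ∀ j : ℕ, (1 + (j : ℝ)) ^ 12 * r ^ j ≤ C' := by
    intro j
    refine le_trans ?_ (le_max_right _ _)
    rw [le_div_iff₀ hr0]
    have := hC (Set.mem_range_self (j + 1))
    refine le_trans (le_of_eq ?_) this
    push_cast
    rw [pow_succ]; ring
  set r2 : ℝ := (2 : ℝ) ^ (-(11 / 256) : ℝ) with hr2
  have hr20 : 0 < r2 := Real.rpow_pos_of_pos two_pos _
  have hr21 : r2 < 1 := Real.rpow_lt_one_of_one_lt_of_neg one_lt_two (by norm_num)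
  obtain ⟨J₁, hJ₁⟩ := exists_pow_lt_of_lt_one
    (show 0 < ε / (C' * 2 ^ 42 + 1) by positivity) hr21
  refine ⟨J₁, fun D J0 hJ s l => ?_⟩
  set L := lg s l with hL
  set N := Nf s l with hN
  have hterm : ∀ k ∈ univ.filter (fun k => ((l + Pf J0 s l : ℕ) : ℤ) ≤ s k),
      (N + 2) ^ 20 * (1 + (s k - l : ℝ)) ^ 10 * (2 : ℝ) ^ (-((s k - l : ℝ) / 16)) ≤
        wt (s k - l) * ((N + 2) ^ 20 * (C' * r2 ^ J0 * ((2 : ℝ) ^ L)⁻¹ ^ 21)) := by
    intro k hk
    have hk' := (mem_filter.mp hk).2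
    obtain ⟨j, hj⟩ : ∃ j : ℕ, s k = (l : ℤ) + j := ⟨(s k - l).toNat, by omega⟩
    have hjP : J0 + 512 * L ≤ j := by
      simp only [Pf, pslope] at hk'
      omega
    simp only [wt, hj]
    push_cast
    simp only [add_sub_cancel_left, Nat.abs_cast]
    have e1 : (2 : ℝ) ^ (-((j : ℝ) / 16)) = r ^ j * r2 ^ j := by
      rw [hr, hr2, ← Real.rpow_natCast, ← Real.rpow_natCast, ← Real.rpow_mul two_pos.le,
        ← Real.rpow_mul two_pos.le, ← Real.rpow_add two_pos]
      congr 1; ring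
    have e2 : r2 ^ j ≤ r2 ^ J0 * ((2 : ℝ) ^ L)⁻¹ ^ 21 := by
      refine (pow_le_pow_of_le_one hr20.le hr21.le hjP).trans ?_
      rw [pow_add]
      refine mul_le_mul_of_nonneg_left ?_ (by positivity)
      rw [hr2, inv_pow, ← pow_mul, ← Real.rpow_natCast, ← Real.rpow_natCast,
        ← Real.rpow_mul two_pos.le, ← Real.rpow_neg two_pos.le]
      refine Real.rpow_le_rpow_of_exponent_le one_le_two ?_
      push_cast
      linarith [(L.cast_nonneg : (0:ℝ) ≤ L)]
    rw [e1, one_div_mul_eq_div, le_div_iff₀ (by positivity)]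
    calc (N + 2) ^ 20 * (1 + (j : ℝ)) ^ 10 * (r ^ j * r2 ^ j) * (1 + (j : ℝ)) ^ 2
        = (N + 2) ^ 20 * (((1 + (j : ℝ)) ^ 12 * r ^ j) * r2 ^ j) := by ring
      _ ≤ (N + 2) ^ 20 * (C' * (r2 ^ J0 * ((2 : ℝ) ^ L)⁻¹ ^ 21)) := by
          refine mul_le_mul_of_nonneg_left ?_ (by positivity)
          exact mul_le_mul (hCj j) e2 (by positivity) (le_max_left _ _)
      _ = _ := by ring
  refine (sum_le_sum hterm).trans ?_
  rw [← sum_mul]
  have hN0 : 0 ≤ N := Nf_nonneg s l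
  calc _ ≤ N * ((N + 2) ^ 20 * (C' * r2 ^ J0 * ((2 : ℝ) ^ L)⁻¹ ^ 21)) :=
        mul_le_mul_of_nonneg_right (sum_le_univ_sum_of_nonneg fun k => wt_nonneg _) (by positivity)
    _ ≤ (N + 2) ^ 21 * (((2 : ℝ) ^ L)⁻¹ ^ 21 * (C' * r2 ^ J0)) := by
        rw [pow_succ (N + 2) 20]
        nlinarith [show 0 ≤ (N + 2) ^ 20 * (C' * r2 ^ J0 * ((2 : ℝ) ^ L)⁻¹ ^ 21) by positivity]
    _ = ((N + 2) * ((2 : ℝ) ^ L)⁻¹) ^ 21 * (C' * r2 ^ J0) := by rw [mul_pow]; ring
    _ ≤ 4 ^ 21 * (C' * r2 ^ J0) := by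
        refine mul_le_mul_of_nonneg_right (pow_le_pow_left₀ (by positivity) ?_ 21) (by positivity)
        rw [← div_eq_mul_inv, div_le_iff₀ (by positivity)]
        exact (Nf_le_two_pow_lg s l).trans_eq (by rw [pow_add]; ring)
    _ = C' * 2 ^ 42 * r2 ^ J0 := by norm_num; ring
    _ ≤ (C' * 2 ^ 42 + 1) * (ε / (C' * 2 ^ 42 + 1)) := by
        refine mul_le_mul (by linarith) ?_ (by positivity) (by positivity)
        exact (pow_le_pow_of_le_one hr20.le hr21.le hJ).trans hJ₁.le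
    _ = ε := mul_div_cancel₀ ε (by positivity)

/-- The width constant of `F1`. -/
def bandK : ℕ := 200000 + (5120 * 5120 + 5120 + 5121) + 40964 * 40964

/-- `F1`. -/
lemma band_count (J0 : ℕ) (s : Fin D → ℤ) (k : Fin D) (T : ℕ) :
    ((range T).filter (fun t => k ∈ Bset J0 s t)).card ≤ bandK * (J0 + 1) + 1 := by
  set F := (range T).filter (fun t => k ∈ Bset J0 s t) with hF
  rcases F.eq_empty_or_nonempty with h | h
  · simp [h]
  set t0 := F.min' h with ht0
  set t1 := F.max' h with ht1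
  have h01 : t0 ≤ t1 := F.min'_le t1 (F.max'_mem h)
  have hsub : F ⊆ Finset.Icc t0 t1 := fun t ht => mem_Icc.mpr ⟨F.min'_le t ht, F.le_max' t ht⟩
  refine (card_le_card hsub).trans ?_
  rw [Nat.card_Icc]
  suffices hh : t1 - t0 ≤ bandK * (J0 + 1) by omega
  have m0 := (mem_filter.mp (F.min'_mem h)).2
  have m1 := (mem_filter.mp (F.max'_mem h)).2
  simp only [Bset, mem_filter, mem_univ, true_and, ← ht0] at m0
  simp only [Bset, mem_filter, mem_univ, true_and, ← ht1] at m1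
  have hmono := (lv_strictMono s).monotone
  set a := lv s t0 with ha
  set W := lv s t1 - a with hW
  set L := lg s a with hL
  have haW : lv s t1 = a + W := by have := hmono h01; omega
  have hth := th_le J0 s (le_refl 5) (top s t0)
  have htop : top s t0 = a + 5 + L / 8 := by simp [top, lv, mj, ← ha, ← hL]; ring
  have hlt := lg_le_lg s (top s t0) a (5 + L / 8) (by omega) (by omega)
  have hbl := blen_le (5 + L / 8)
  have hWle : W ≤ 10 * J0 + 10241 * L + 81925 + (5120 * 5120 + 5120 + 5121) := by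
    have : (lv s t1 : ℤ) < (th J0 s 5 (top s t0) : ℤ) := lt_of_le_of_lt m1.1 m0.2
    simp only [Pf, pslope] at hth
    omega
  have hstep : ∀ t, t0 ≤ t → t < t1 → W ≤ bandK * (J0 + 1) * (lv s (t + 1) - lv s t) := by
    intro t h0 h1
    have e : lv s (t + 1) - lv s t = 3 + lg s (lv s t) / 8 := by simp only [lv, mj]; omega
    rw [e]
    set i := 3 + lg s (lv s t) / 8 with hi
    have hta := hmono h0
    have htb := hmono h1.le
    have hl := lg_le_lg s a (lv s t) W (by omega) (by omega)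
    have hb := mul_blen_le 40964 W
    have hW2 : W ≤ 20 * J0 + 200000 * i + (5120 * 5120 + 5120 + 5121) * 2 + 40964 * 40964 + 250000 := by
      omega
    calc W ≤ _ := hW2
      _ ≤ bandK * (J0 + 1) * i := by
          have hi3 : 3 ≤ i := by omega
          simp only [bandK]
          nlinarith [Nat.zero_le (J0 * i), Nat.mul_le_mul_left J0 hi3]
  have hW0 : 0 < W ∨ t0 = t1 := by
    rcases h01.lt_or_eq with h2 | h2
    · exact Or.inl (by have := lv_strictMono s h2; omega)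
    · exact Or.inr h2
  rcases hW0 with hW0 | hW0
  · refine Nat.le_of_mul_le_mul_right ?_ hW0
    have key : ∀ t, t0 ≤ t → t ≤ t1 → (t - t0) * W ≤ bandK * (J0 + 1) * (lv s t - a) := by
      intro t h0
      induction t, h0 using Nat.le_induction with
      | base => simp
      | succ t h0 ih =>
        intro h1
        have h3 := ih (by omega)
        have h4 := hstep t h0 h1
        have h5 := hmono h0
        have h6 := hmono (show t ≤ t + 1 by omega)
        have e1 : t + 1 - t0 = (t - t0) + 1 := by omega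
        have e2 : lv s (t + 1) - a = (lv s t - a) + (lv s (t + 1) - lv s t) := by omega
        rw [e1, e2, Nat.add_mul, Nat.mul_add, one_mul]
        exact Nat.add_le_add h3 h4
    exact key t1 h01 le_rfl
  · omega

/-- Module 1. -/
theorem schedFacts : SchedFacts := by
  set Kn : ℕ := 4 * bandK + 46656 + (5120 * 5120 + 5120 + 5121) + 20 with hKn
  refine ⟨(Kn : ℝ), by positivity, master_sum, fun D J0 s hJ0 A hA => ?_⟩
  have hK : (20 : ℝ) ≤ Kn := by rw [hKn]; exact_mod_cast (by omega : 20 ≤ Kn)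
  have hA' : A = ((Kn * (J0 + 1) : ℕ) : ℝ) := by rw [hA]; push_cast; ring
  have hD : (0 : ℝ) ≤ D := D.cast_nonneg
  have hcount : ∀ k T, ((range T).filter (fun t => k ∈ Bset J0 s t)).card ≤
      (bandK + 1) * (J0 + 1) := fun k T => (band_count J0 s k T).trans (by
    rw [Nat.add_mul, one_mul]; omega)
  refine ⟨fun k T => ?_, fun T => ?_, fun T => ?_, th_mono J0 s, fun c l hc => ?_,
    th_add_le J0 s, fun t => ?_, fun t => ?_, fun t => ?_, Nf_regular s, card_window_le s⟩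
  · rw [hA']
    exact Nat.cast_le.mpr ((hcount k T).trans (Nat.mul_le_mul_right _ (by omega)))
  · have h1 : ∑ t ∈ range T, Uf J0 s t ≤
        2 * ((∑ t ∈ range T, (Bset J0 s t).card : ℕ) : ℝ) + ∑ t ∈ range T, Nf s (lv s t) := by
      push_cast
      rw [mul_sum, ← sum_add_distrib]
      refine sum_le_sum fun t _ => ?_
      simp only [Uf]
      split_ifs with h
      · have := Nf_nonneg s (lv s t); positivity
      · have : (1 : ℝ) ≤ (Bset J0 s t).card := by
          exact_mod_cast (nonempty_iff_ne_empty.mpr h).card_pos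
        linarith
    have h2 : ∑ t ∈ range T, (Bset J0 s t).card ≤ D * ((bandK + 1) * (J0 + 1)) := by
      have e : ∑ t ∈ range T, (Bset J0 s t).card =
          ∑ k : Fin D, ((range T).filter (fun t => k ∈ Bset J0 s t)).card := by
        simp only [card_filter]
        rw [sum_comm]
        exact sum_congr rfl fun t _ => by simp
      rw [e]
      refine (sum_le_sum fun k _ => hcount k T).trans_eq ?_
      simp
    have h3 : (2 * (D * ((bandK + 1) * (J0 + 1))) + 4 * D : ℕ) ≤ Kn * (J0 + 1) * D :=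
      calc 2 * (D * ((bandK + 1) * (J0 + 1))) + 4 * D
          ≤ 2 * (D * ((bandK + 1) * (J0 + 1))) + 4 * ((J0 + 1) * D) := by
            have := Nat.le_mul_of_pos_left D (show 0 < J0 + 1 by omega)
            omega
        _ = (2 * (bandK + 1) + 4) * (J0 + 1) * D := by ring
        _ ≤ _ := Nat.mul_le_mul_right _ (Nat.mul_le_mul_right _ (by omega))
    calc _ ≤ _ := h1
      _ ≤ 2 * ((D * ((bandK + 1) * (J0 + 1)) : ℕ) : ℝ) + 4 * D :=
          add_le_add (mul_le_mul_of_nonneg_left (Nat.cast_le.mpr h2) zero_le_two) (sum_Nf_lv_le s T)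
      _ = ((2 * (D * ((bandK + 1) * (J0 + 1))) + 4 * D : ℕ) : ℝ) := by push_cast; ring
      _ ≤ _ := (Nat.cast_le.mpr h3).trans_eq (by rw [hA']; push_cast; ring)
  · exact (sum_Nf_lv_le s T).trans (mul_le_mul_of_nonneg_right (by linarith) hD)
  · refine ⟨le_th J0 s c l, le_trans (Nat.cast_le.mpr (th_le J0 s hc l)) ?_⟩
    have h : (5120 * 5120 + 5120 + 5121 : ℕ) ≤ Kn := by rw [hKn]; omega
    have h' := (Nat.cast_le (α := ℝ)).mpr h
    simp only [Nat.cast_add, Nat.cast_mul, Nat.cast_ofNat] at h' ⊢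
    linarith
  · refine (Nf_lv_le s t).trans (mul_le_mul_of_nonneg_right ?_ ?_)
    · rw [hKn]; exact_mod_cast (by omega : 46656 ≤ Kn)
    · have := Nf_nonneg s (top s t); positivity
  · linarith [mj_le_logb s (lv s t)]
  · exact (two_pow_mj_le s _).trans (le_mul_of_one_le_left
      (Real.rpow_nonneg (by linarith [Nf_nonneg s (lv s t)]) _) (by linarith))

end Vale.Agent.P262.St
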