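import Vale.Agent.P262.St.SignPolicy

/-! P262 St, module 3: one signing of several pieces (PROOF.md section 3). -/

namespace Vale.Agent.P262.St

open Finset

variable {D n M ne : ℕ} (v : Fin n → Fin D → ℝ) (pc : Fin n → Fin M) (s : Fin D → ℤ)
  (a b θ U : ℤ) (wgt : Fin D → ℝ) (σ : ℤ → ℝ) (ω : Fin D → Fin D → ℝ) (T : Fin ne → Fin n → ℝ)

lemma eval_band {E : Type} (ev : E → ℤ) (p : Fin M) (u : Fin n → ℝ) :
    ∑ k ∈ univ.filter (fun k => a ≤ s k ∧ s k < b),
        (∑ i, (if pc i ≤ p then v i k else 0) * u i) ^ 2 =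
      ∑ j, (∑ i, sFun v pc s a b θ U wgt σ ω T ev
        (Sum.inr (Sum.inl (p, 0)) : SCls M ne E) j i * u i) ^ 2 := by
  rw [sum_sidx]
  simp only [sFun, sSupp, sBlk, Fin.isValue, Fin.reduceEq, if_true, true_or, false_and,
    if_false, zero_mul, sum_const_zero, zero_pow two_ne_zero, zero_add, add_zero]
  rw [sum_filter]
  refine sum_congr rfl fun k _ => ?_
  by_cases hk : a ≤ s k ∧ s k < b <;> simp [hk]

lemma eval_weak {E : Type} (ev : E → ℤ) (hwgt : ∀ k, 0 ≤ wgt k) (p : Fin M) (u : Fin n → ℝ) :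
    ∑ k ∈ univ.filter (fun k => s k < a),
        wgt k * (∑ i, (if pc i ≤ p then v i k else 0) * u i) ^ 2 =
      ∑ j, (∑ i, sFun v pc s a b θ U wgt σ ω T ev
        (Sum.inr (Sum.inl (p, 1)) : SCls M ne E) j i * u i) ^ 2 := by
  rw [sum_sidx]
  simp only [sFun, sSupp, sBlk, Fin.isValue, Fin.reduceEq, if_true, or_true, false_and,
    if_false, zero_mul, sum_const_zero, zero_pow two_ne_zero, zero_add, add_zero]
  rw [sum_filter]
  refine sum_congr rfl fun k _ => ?_
  by_cases hk : s k < a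
  · simp only [if_pos hk]
    conv_lhs => rw [← Real.sq_sqrt (hwgt k), ← mul_pow, mul_sum]
    congr 1
    exact sum_congr rfl fun i _ => by by_cases hi : pc i ≤ p <;> simp [hi, mul_assoc]
  · simp [hk]

lemma eval_top {E : Type} (ev : E → ℤ) (p : Fin M) (u : Fin n → ℝ) :
    ∑ k ∈ univ.filter (fun k => θ ≤ s k ∧ s k ≤ U),
        (∑ i, (if pc i = p then v i k else 0) * u i) ^ 2 =
      ∑ j, (∑ i, sFun v pc s a b θ U wgt σ ω T ev
        (Sum.inr (Sum.inl (p, 2)) : SCls M ne E) j i * u i) ^ 2 := by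
  rw [sum_sidx]
  simp only [sFun, sSupp, sBlk, Fin.isValue, Fin.reduceEq, if_true, or_self, false_and,
    if_false, zero_mul, sum_const_zero, zero_pow two_ne_zero, zero_add, add_zero]
  rw [sum_filter]
  refine sum_congr rfl fun k _ => ?_
  by_cases hk : θ ≤ s k ∧ s k ≤ U <;> simp [hk]

lemma eval_gram {E : Type} (ev : E → ℤ) (p : Fin M) (u : Fin n → ℝ) :
    ∑ kk : Fin D × Fin D, (∑ i, (if pc i = p then ω kk.1 kk.2 * (v i kk.1 * v i kk.2)
        else 0) * u i) ^ 2 =
      ∑ j, (∑ i, sFun v pc s a b θ U wgt σ ω T ev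
        (Sum.inr (Sum.inl (p, 3)) : SCls M ne E) j i * u i) ^ 2 := by
  rw [sum_sidx]
  simp only [sFun, sSupp, sBlk, Fin.isValue, Fin.reduceEq, true_and, or_self, if_false,
    zero_mul, ite_self, sum_const_zero, zero_pow two_ne_zero, zero_add]

lemma eval_fun {E : Type} (ev : E → ℤ) (p : Fin M) (j : Fin ne) (u : Fin n → ℝ) :
    (∑ i, (if pc i = p then T j i else 0) * u i) ^ 2 =
      ∑ jj, (∑ i, sFun v pc s a b θ U wgt σ ω T ev
        (Sum.inr (Sum.inr (p, j)) : SCls M ne E) jj i * u i) ^ 2 := by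
  rw [sum_sidx]
  simp only [sFun, sBlk, zero_mul, ite_self, sum_const_zero, zero_pow two_ne_zero, add_zero]

lemma eval_strong (EU : Finset ℤ) (hEU : ∀ k, θ ≤ s k → s k ∈ EU) (hσ : ∀ u, 0 ≤ σ u)
    (p : Fin M) (u : Fin n → ℝ) :
    ∑ k ∈ univ.filter (fun k => θ ≤ s k),
        σ (s k) * (∑ i, (if pc i = p then v i k else 0) * u i) ^ 2 =
      ∑ e : {e // e ∈ EU}, ∑ j, (∑ i, sFun v pc s a b θ U wgt σ ω T (fun e => e.1)
        (Sum.inl (p, e) : SCls M ne {e // e ∈ EU}) j i * u i) ^ 2 := by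
  simp only [sum_sidx, sFun, sSupp, sBlk, zero_mul, sum_const_zero, zero_pow two_ne_zero,
    zero_add, add_zero]
  rw [sum_comm, sum_filter]
  refine sum_congr rfl fun k _ => ?_
  by_cases hk : θ ≤ s k
  · rw [if_pos hk, sum_eq_single (⟨s k, hEU k hk⟩ : {e // e ∈ EU})]
    · conv_lhs => rw [← Real.sq_sqrt (hσ (s k)), ← mul_pow, mul_sum]
      congr 1
      exact sum_congr rfl fun i _ => by by_cases hi : pc i = p <;> simp [hi, hk, mul_assoc]
    · intro e _ he
      have : ¬ (θ ≤ s k ∧ s k = e.1) := fun h' => he (Subtype.ext h'.2.symm)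
      simp [if_neg this]
    · simp
  · rw [if_neg hk]
    refine (sum_eq_zero fun e _ => ?_).symm
    simp [hk]

/-- The module. -/
theorem signExists (hE : EngineExists) : SignExists := by
  classical
  refine ⟨2000, fun D n M ne v pc x s a b θ U wgt σ ω T hM hv hx _hab _haθ hwgt hσ hT => ?_⟩
  intro B Sg q
  set EU := Sg.image s with hEU
  set Q : ℕ := M * (5 + ne) with hQ
  have hq : (Q : ℝ) = q := by simp only [hQ, q]; push_cast; ring
  have hcardτ : Fintype.card (Fin M × (Fin 5 ⊕ Fin ne)) = Q := by simp [hQ]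
  have hv1 : ∀ i (K : Finset (Fin D)), ∑ k ∈ K, v i k ^ 2 ≤ 1 := fun i K => by
    refine (sum_le_sum_of_subset_of_nonneg (subset_univ K) fun k _ _ => sq_nonneg _).trans ?_
    exact le_of_eq (hv i)
  set ev : {u // u ∈ EU} → ℤ := fun e => e.1 with hev
  set thr : ℤ → ℕ := thrPie s a b θ Q with hthr
  set thr0 : ℕ := thrPre s a b Q with hthr0
  set r0 : ℕ := 4 * (2 * Q + 1) with hr0
  set c := sFun v pc s a b θ U wgt σ ω T ev (M := M) (ne := ne) with hc
  set W := sW v pc s a b θ U wgt σ ω T ev Q (M := M) (ne := ne) with hWd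
  obtain ⟨y, hy, hFc, hy'⟩ := engine_types hE (r₀ := r0) c sTst
    (sProt pc s a b θ U ev Q) W (sProt_mono pc s a b θ U ev Q)
    (sW_nonneg v pc s a b θ U wgt σ ω T ev Q hwgt hσ hT)
    (sFun_budget v pc s a b θ U wgt σ ω T ev Q hv hwgt hσ hT)
    (fun S hS => by rw [hcardτ]; exact sign_policy v pc s a b θ U wgt σ ω T ev Q S hS) x hx
  set F := univ.filter (fun i => |y i| < 1) with hF
  obtain ⟨ε0, hε0, hgr⟩ := greedy_prefix F pc y hy
    (fun i k => if s k < a then Real.sqrt (wgt k) * v i k else 0)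
  set ε : Fin n → ℝ := fun i => if i ∈ F then ε0 i else y i with hε
  have hεpm : ∀ i, ε i = 1 ∨ ε i = -1 := by
    intro i
    simp only [hε]
    split_ifs with hi
    · exact hε0 i
    · have h1 : |y i| = 1 := le_antisymm (hy i) (not_lt.1 fun h => hi (mem_filter.2 ⟨mem_univ _, h⟩))
      exact (abs_eq zero_le_one).1 h1
  have hsplit : ∀ (P : Fin n → Prop) [DecidablePred P] (f : Fin n → ℝ),
      ∑ i ∈ univ.filter P, (ε i - x i) * f i =
        (∑ i, (if P i then f i else 0) * (y i - x i)) + ∑ i ∈ F.filter P, (ε0 i - y i) * f i := by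
    intro P _ f
    have e : F.filter P = univ.filter (fun i => P i ∧ i ∈ F) := by ext i; simp [and_comm]
    rw [e, sum_filter, sum_filter, ← sum_add_distrib]
    refine sum_congr rfl fun i _ => ?_
    simp only [hε]
    by_cases hP : P i <;> by_cases hi : i ∈ F <;> simp [hP, hi] <;> ring
  have hd2 : ∀ i, |ε0 i - y i| ≤ 2 := fun i => by
    have := abs_le.1 (hy i)
    rw [abs_le]; rcases hε0 i with h | h <;> rw [h] <;> constructor <;> linarith
  have add_sq : ∀ (K : Finset (Fin D)) (w f g : Fin D → ℝ), (∀ k, 0 ≤ w k) →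
      ∑ k ∈ K, w k * (f k + g k) ^ 2 ≤
        2 * ∑ k ∈ K, w k * f k ^ 2 + 2 * ∑ k ∈ K, w k * g k ^ 2 := fun K w f g hw => by
    rw [mul_sum, mul_sum, ← sum_add_distrib]
    exact sum_le_sum fun k _ => by nlinarith [mul_nonneg (hw k) (sq_nonneg (f k - g k))]
  -- the sums of the engine over one test
  have htest : ∀ (t : Fin M × (Fin 5 ⊕ Fin ne)) (h0 : SCls M ne {u // u ∈ EU}),
      (∀ h, sTst h = t ↔ h = h0) →
      ∑ j, (∑ i, c h0 j i * (y i - x i)) ^ 2 ≤ 7 * W h0 := by
    intro t h0 h1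
    have := hy' t
    rwa [show univ.filter (fun h => sTst h = t) = {h0} by ext h; simp [h1], sum_singleton,
      sum_singleton] at this
  have hiff : ∀ (p : Fin M) (r : Fin 4) (h : SCls M ne {u // u ∈ EU}),
      sTst h = (p, Sum.inl r.castSucc) ↔ h = Sum.inr (Sum.inl (p, r)) := by
    intro p r h
    rcases h with ⟨p', e⟩ | ⟨p', r'⟩ | ⟨p', j⟩
    · simp [sTst]; intro _; exact (Fin.castSucc_lt_last r).ne'
    · simp [sTst]
    · simp [sTst]
  have hF' : ∀ P : Fin n → Prop, ∀ [DecidablePred P], (F.filter P).card ≤ r0 := fun P _ =>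
    (card_filter_le _ _).trans hFc
  have hM1 : (1:ℝ) ≤ M := by exact_mod_cast hM
  have hq5 : (5:ℝ) ≤ q := by simp only [q]; nlinarith [Nat.cast_nonneg (α := ℝ) ne]
  have hr0q : (r0:ℝ) ≤ 9 * q := by simp only [hr0]; push_cast; linarith
  have hr0q2 : (r0:ℝ) ^ 2 ≤ 81 * q ^ 2 :=
    (pow_le_pow_left₀ (Nat.cast_nonneg _) hr0q 2).trans_eq (by ring)
  have hqq : q ≤ q ^ 2 := by nlinarith
  refine ⟨ε, hεpm, ?_, ?_, ?_, ?_, ?_, ?_⟩
  · intro p
    have h := htest _ (Sum.inr (Sum.inl (p, 0))) (hiff p 0)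
    have hE1 : ∑ k ∈ B, (∑ i, (if pc i ≤ p then v i k else 0) * (y i - x i)) ^ 2 ≤ 7 * thr0 :=
      (eval_band v pc s a b θ U wgt σ ω T ev p (fun i => y i - x i)).trans_le h
    have hL := leftover_bound B (F.filter fun i => pc i ≤ p) (fun i => ε0 i - y i)
      (fun i _ => hd2 i) (hF' _) v zero_le_one (fun i _ => hv1 i B)
    simp only [hsplit]
    have h2 := add_sq B (fun _ => 1) (fun k => ∑ i, (if pc i ≤ p then v i k else 0) * (y i - x i))
      (fun k => ∑ i ∈ F.filter (fun i => pc i ≤ p), (ε0 i - y i) * v i k) (fun _ => zero_le_one)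
    simp only [one_mul] at h2
    refine h2.trans ?_
    simp only [hthr0, thrPre] at hE1
    push_cast at hE1
    linarith [Nat.cast_nonneg (α := ℝ) B.card]
  · intro p
    have h := htest _ (Sum.inr (Sum.inl (p, 1))) (hiff p 1)
    set Wk := univ.filter (fun k => s k < a) with hWk
    have hE1 : ∑ k ∈ Wk, wgt k * (∑ i, (if pc i ≤ p then v i k else 0) * (y i - x i)) ^ 2 ≤
        7 * ∑ i, ∑ k ∈ Wk, wgt k * v i k ^ 2 :=
      (eval_weak v pc s a b θ U wgt σ ω T ev hwgt p (fun i => y i - x i)).trans_le h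
    have hg := hgr p
    have hE2 : ∑ k ∈ Wk, wgt k * (∑ i ∈ F.filter (fun i => pc i ≤ p), (ε0 i - y i) * v i k) ^ 2 ≤
        4 * ∑ i, ∑ k ∈ Wk, wgt k * v i k ^ 2 := by
      refine le_trans (le_of_eq ?_) (hg.trans (mul_le_mul_of_nonneg_left ?_ (by norm_num)))
      · rw [hWk, sum_filter]
        refine sum_congr rfl fun k _ => ?_
        split_ifs with hk
        · rw [← Real.sq_sqrt (hwgt k), ← mul_pow, mul_sum, Real.sqrt_sq (Real.sqrt_nonneg _)]
          congr 1
          exact sum_congr rfl fun i _ => by ring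
        · simp
      · refine (le_of_eq ?_).trans (sum_le_sum_of_subset_of_nonneg (subset_univ F)
          fun i _ _ => sum_nonneg fun k _ => mul_nonneg (hwgt k) (sq_nonneg _))
        refine sum_congr rfl fun i _ => ?_
        rw [hWk, sum_filter]
        refine sum_congr rfl fun k _ => ?_
        split_ifs <;> simp [mul_pow, Real.sq_sqrt (hwgt k)]
    simp only [hsplit]
    refine (add_sq Wk wgt _ _ hwgt).trans ?_
    have : 0 ≤ ∑ i, ∑ k ∈ Wk, wgt k * v i k ^ 2 :=
      sum_nonneg fun i _ => sum_nonneg fun k _ => mul_nonneg (hwgt k) (sq_nonneg _)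
    linarith
  · intro p
    have h := hy' (p, Sum.inl 4)
    have hfil : univ.filter (fun h : SCls M ne {u // u ∈ EU} => sTst h = (p, Sum.inl 4)) =
        (univ : Finset {u // u ∈ EU}).image (fun e => Sum.inl (p, e)) := by
      ext h
      simp only [mem_filter, mem_univ, true_and, mem_image]
      rcases h with ⟨p', e⟩ | ⟨p', r⟩ | ⟨p', j⟩
      · simp [sTst, eq_comm]
      · simp [sTst]; intro _; exact (Fin.castSucc_lt_last r).ne
      · simp [sTst]
    rw [hfil, sum_image (by intro e _ e' _ he; simpa using he),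
      sum_image (by intro e _ e' _ he; simpa using he)] at h
    have hWe : ∀ e, W (Sum.inl (p, e)) = σ e.1 * (thr e.1 : ℝ) := fun e => rfl
    simp only [hWe] at h
    rw [sum_coe_sort EU (fun u => σ u * (thr u : ℝ))] at h
    set f : Fin D → ℝ := fun k => ∑ i, (if pc i = p then v i k else 0) * (y i - x i) with hf
    have hE1 : ∑ k ∈ Sg, σ (s k) * f k ^ 2 ≤ 7 * ∑ u ∈ EU, σ u * (thr u : ℝ) :=
      (eval_strong v pc s a b θ U wgt σ ω T EU
        (fun k hk => mem_image.2 ⟨k, mem_filter.2 ⟨mem_univ _, hk⟩, rfl⟩) hσ p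
        (fun i => y i - x i)).trans_le h
    have hσle : ∀ k ∈ Sg, σ (s k) ≤ ∑ u ∈ EU, σ u := fun k hk =>
      single_le_sum (fun u _ => hσ u) (mem_image.2 ⟨k, hk, rfl⟩)
    have hL := leftover_bound Sg (F.filter fun i => pc i = p) (fun i => ε0 i - y i)
      (fun i _ => hd2 i) (hF' _) v zero_le_one (fun i _ => hv1 i Sg)
    have hE2 : ∑ k ∈ Sg, σ (s k) * (∑ i ∈ F.filter (fun i => pc i = p), (ε0 i - y i) * v i k) ^ 2 ≤
        (∑ u ∈ EU, σ u) * (4 * (r0:ℝ) ^ 2 * 1) := by
      refine le_trans ?_ (mul_le_mul_of_nonneg_left hL (sum_nonneg fun u _ => hσ u))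
      rw [mul_sum]
      exact sum_le_sum fun k hk => mul_le_mul_of_nonneg_right (hσle k hk) (sq_nonneg _)
    simp only [hsplit]
    refine (add_sq Sg (fun k => σ (s k)) f _ (fun k => hσ _)).trans ?_
    have hfin : ∀ u ∈ EU, 14 * (σ u * (thr u : ℝ)) + 8 * ((r0:ℝ) ^ 2 * σ u) ≤
        2000 * (σ u * (B.card + (univ.filter fun k => θ ≤ s k ∧ s k ≤ u).card + q ^ 2)) := by
      intro u _
      have h0 : 14 * (thr u : ℝ) + 8 * (r0:ℝ) ^ 2 ≤
          2000 * (B.card + (univ.filter fun k => θ ≤ s k ∧ s k ≤ u).card + q ^ 2) := by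
        simp only [hthr, thrPie, sTop]; push_cast
        linarith [Nat.cast_nonneg (α := ℝ) B.card,
          Nat.cast_nonneg (α := ℝ) (univ.filter fun k => θ ≤ s k ∧ s k ≤ u).card]
      have := mul_le_mul_of_nonneg_left h0 (hσ u)
      linarith
    have := sum_le_sum hfin
    rw [sum_add_distrib, ← mul_sum, ← mul_sum, ← mul_sum, ← mul_sum] at this
    linarith
  · intro p
    have h := htest _ (Sum.inr (Sum.inl (p, 2))) (hiff p 2)
    set Uk := univ.filter (fun k => θ ≤ s k ∧ s k ≤ U) with hUk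
    have hE1 : ∑ k ∈ Uk, (∑ i, (if pc i = p then v i k else 0) * (y i - x i)) ^ 2 ≤ 7 * thr U :=
      (eval_top v pc s a b θ U wgt σ ω T ev p (fun i => y i - x i)).trans_le h
    have hL := leftover_bound Uk (F.filter fun i => pc i = p) (fun i => ε0 i - y i)
      (fun i _ => hd2 i) (hF' _) v zero_le_one (fun i _ => hv1 i Uk)
    simp only [hsplit]
    have h2 := add_sq Uk (fun _ => 1) (fun k => ∑ i, (if pc i = p then v i k else 0) * (y i - x i))
      (fun k => ∑ i ∈ F.filter (fun i => pc i = p), (ε0 i - y i) * v i k) (fun _ => zero_le_one)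
    simp only [one_mul] at h2
    refine h2.trans ?_
    simp only [hthr, thrPie, sTop, ← hUk] at hE1
    push_cast at hE1
    linarith [Nat.cast_nonneg (α := ℝ) B.card, Nat.cast_nonneg (α := ℝ) Uk.card]
  · intro p Wb Z hZ hWb hZi
    have h := htest _ (Sum.inr (Sum.inl (p, 3))) (hiff p 3)
    have hE1 : ∑ kk : Fin D × Fin D, (∑ i, (if pc i = p then ω kk.1 kk.2 * (v i kk.1 * v i kk.2)
        else 0) * (y i - x i)) ^ 2 ≤ 7 * Wb :=
      ((eval_gram v pc s a b θ U wgt σ ω T ev p (fun i => y i - x i)).trans_le h).trans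
        (mul_le_mul_of_nonneg_left hWb (by norm_num))
    have hL := leftover_bound (univ : Finset (Fin D × Fin D)) (F.filter fun i => pc i = p)
      (fun i => ε0 i - y i) (fun i _ => hd2 i) (hF' _)
      (fun i kk => ω kk.1 kk.2 * (v i kk.1 * v i kk.2)) hZ (fun i _ => by
        refine le_trans (le_of_eq ?_) (hZi i)
        rw [Fintype.sum_prod_type]
        exact sum_congr rfl fun k _ => sum_congr rfl fun k' _ => by ring)
    rw [← Fintype.sum_prod_type' (f := fun k k' => (ω k k' * ∑ i ∈ univ.filter (fun i => pc i = p),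
      (ε i - x i) * (v i k * v i k')) ^ 2)]
    have hpt : ∀ kk : Fin D × Fin D, (ω kk.1 kk.2 * ∑ i ∈ univ.filter (fun i => pc i = p),
        (ε i - x i) * (v i kk.1 * v i kk.2)) ^ 2 ≤
        2 * (∑ i, (if pc i = p then ω kk.1 kk.2 * (v i kk.1 * v i kk.2) else 0) * (y i - x i)) ^ 2 +
        2 * (∑ i ∈ F.filter (fun i => pc i = p), (ε0 i - y i) * (ω kk.1 kk.2 * (v i kk.1 * v i kk.2))) ^ 2 := by
      intro kk
      rw [hsplit, mul_add, mul_sum, mul_sum]
      refine le_trans (le_of_eq ?_) (le_of_le_of_eq (add_sq_le) (mul_add _ _ _))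
      congr 1
      congr 1
      · exact sum_congr rfl fun i _ => by split_ifs <;> ring
      · exact sum_congr rfl fun i _ => by ring
    refine (sum_le_sum fun kk _ => hpt kk).trans ?_
    rw [sum_add_distrib, ← mul_sum, ← mul_sum]
    have hW0 : 0 ≤ Wb := le_trans (sum_nonneg fun k _ => sum_nonneg fun k' _ =>
      mul_nonneg (sq_nonneg _) (sum_nonneg fun i _ => mul_nonneg (sq_nonneg _) (sq_nonneg _))) hWb
    have := mul_le_mul_of_nonneg_right hr0q2 hZ
    have := mul_nonneg (sq_nonneg q) hZ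
    linarith
  · intro p j
    have h := htest (p, Sum.inr j) (Sum.inr (Sum.inr (p, j))) (fun h => by
      rcases h with ⟨p', e⟩ | ⟨p', r⟩ | ⟨p', j'⟩ <;> simp [sTst])
    have hE1 : (∑ i, (if pc i = p then T j i else 0) * (y i - x i)) ^ 2 ≤
        7 * ∑ i ∈ univ.filter (fun i => pc i = p), T j i :=
      (eval_fun v pc s a b θ U wgt σ ω T ev p j (fun i => y i - x i)).trans_le h
    have hL := leftover_bound ({()} : Finset Unit) (F.filter fun i => pc i = p)
      (fun i => ε0 i - y i) (fun i _ => hd2 i) (hF' _) (fun i _ => T j i) zero_le_one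
      (fun i _ => by rw [sum_singleton]; nlinarith [hT j i])
    simp only [sum_singleton] at hL
    rw [hsplit]
    refine (add_sq_le).trans ?_
    have : 0 ≤ ∑ i ∈ univ.filter (fun i => pc i = p), T j i := sum_nonneg fun i _ => (hT j i).1
    linarith

end Vale.Agent.P262.St
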