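import Vale.Agent.P262.St.Interface

/-! P262 St, module 3 (auxiliary): the engine for arbitrary index types, greedy rounding in piece
order, and triangle bounds for the leftovers. -/

namespace Vale.Agent.P262.St

open Finset

/-- The engine with classes of functionals `c h`, indexed by arbitrary finite types. -/
theorem engine_types (hE : EngineExists) {n r₀ : ℕ} {η J τ : Type} [Fintype η] [Fintype J]
    [Fintype τ] [DecidableEq τ] (c : η → J → Fin n → ℝ) (tst : η → τ)
    (prot : η → Finset (Fin n) → Prop) (W : η → ℝ)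
    (hmono : ∀ h S S', S ⊆ S' → prot h S → prot h S') (hW : ∀ h, 0 ≤ W h)
    (hb : ∀ h S, ¬ prot h S → ∑ j, ∑ i ∈ S, c h j i ^ 2 ≤ W h)
    (hpol : ∀ S : Finset (Fin n), r₀ < S.card →
      ∃ (Act : Finset (Fin n)) (κ : Type) (_ : Fintype κ) (row : κ → Fin n → ℝ),
        Act ⊆ S ∧ 2 * (Fintype.card κ + 2 * Fintype.card τ + 1) ≤ Act.card ∧
        ∀ h, prot h S → ∀ j, ∀ u : Fin n → ℝ, (∀ i, i ∉ Act → u i = 0) →
          (∀ a, ∑ i, row a i * u i = 0) → ∑ i, c h j i * u i = 0)
    (x : Fin n → ℝ) (hx : ∀ i, |x i| ≤ 1) :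
    ∃ y : Fin n → ℝ, (∀ i, |y i| ≤ 1) ∧ (univ.filter fun i => |y i| < 1).card ≤ r₀ ∧
      ∀ t, ∑ h ∈ univ.filter (fun h => tst h = t), ∑ j, (∑ i, c h j i * (y i - x i)) ^ 2
        ≤ 7 * ∑ h ∈ univ.filter (fun h => tst h = t), W h := by
  classical
  let eH := Fintype.equivFin η
  let eG := Fintype.equivFin (η × J)
  let eT := Fintype.equivFin τ
  obtain ⟨y, hy, hF, hy'⟩ := hE n (Fintype.card (η × J)) (Fintype.card η) (Fintype.card τ) r₀
    (fun g => c (eG.symm g).1 (eG.symm g).2) (fun g => eH (eG.symm g).1)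
    (fun h => eT (tst (eH.symm h))) (fun h => prot (eH.symm h)) (fun h => W (eH.symm h))
    (fun h => hmono _) (fun h => hW _)
    (fun h S hS => by
      refine le_trans (le_of_eq ?_) (hb (eH.symm h) S hS)
      rw [sum_filter, ← eG.sum_comp]
      simp only [Equiv.symm_apply_apply, Fintype.sum_prod_type]
      rw [sum_eq_single (eH.symm h)]
      · simp
      · intro b _ hb'
        refine sum_eq_zero fun j _ => if_neg fun he => hb' ?_
        rw [← he, Equiv.symm_apply_apply]
      · simp)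
    (fun S hS => by
      obtain ⟨Act, κ, hκ, row, hR, hcard, hk⟩ := hpol S hS
      refine ⟨Act, Fintype.card κ, fun a => row ((Fintype.equivFin κ).symm a), hR, hcard,
        fun g hg u hu hrow => ?_⟩
      rw [Equiv.symm_apply_apply] at hg
      refine hk _ hg _ u hu fun a => ?_
      simpa using hrow (Fintype.equivFin κ a))
    x hx
  refine ⟨y, hy, hF, fun t => ?_⟩
  have h := hy' (eT t)
  simp only [sum_filter] at h ⊢
  rw [← eG.sum_comp, ← eH.sum_comp] at h
  simp only [Equiv.symm_apply_apply, Fintype.sum_prod_type, EmbeddingLike.apply_eq_iff_eq] at h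
  refine le_trans (le_of_eq ?_) h
  exact sum_congr rfl fun a _ => by split_ifs <;> simp

/-- Signs in piece order: every prefix has squared weighted norm at most `4` times the sum. -/
theorem greedy_prefix {n M D : ℕ} (F : Finset (Fin n)) (pc : Fin n → Fin M) (y : Fin n → ℝ)
    (hy : ∀ i, |y i| ≤ 1) (a : Fin n → Fin D → ℝ) :
    ∃ ε : Fin n → ℝ, (∀ i, ε i = 1 ∨ ε i = -1) ∧ ∀ p,
      ∑ k, (∑ i ∈ F.filter (fun i => pc i ≤ p), (ε i - y i) * a i k) ^ 2
        ≤ 4 * ∑ i ∈ F, ∑ k, a i k ^ 2 := by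
  classical
  induction F using Finset.strongInduction with
  | _ F ih =>
    rcases F.eq_empty_or_nonempty with rfl | hne
    · exact ⟨fun _ => 1, fun _ => Or.inl rfl, fun p => by simp⟩
    obtain ⟨i0, hi0, hmax⟩ := F.exists_max_image pc hne
    obtain ⟨ε, hε, hb⟩ := ih (F.erase i0) (erase_ssubset hi0)
    set S : Fin D → ℝ := fun k => ∑ i ∈ F.erase i0, (ε i - y i) * a i k with hS
    set e : ℝ := if ∑ k, S k * a i0 k ≤ 0 then 1 else -1 with he
    have hd : (e - y i0) * (∑ k, S k * a i0 k) ≤ 0 := by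
      have := abs_le.1 (hy i0)
      rw [he]; split_ifs with h
      · exact mul_nonpos_of_nonneg_of_nonpos (by linarith) h
      · exact mul_nonpos_of_nonpos_of_nonneg (by linarith) (le_of_not_ge h)
    have hd2 : (e - y i0) ^ 2 ≤ 4 := by
      have := abs_le.1 (hy i0)
      rw [he]; split_ifs <;> nlinarith
    refine ⟨Function.update ε i0 e, fun i => ?_, fun p => ?_⟩
    · by_cases h : i = i0
      · subst h; rw [Function.update_self, he]; split_ifs <;> simp
      · rw [Function.update_of_ne h]; exact hε i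
    have hoff : ∀ (s : Finset (Fin n)) k, i0 ∉ s →
        ∑ i ∈ s, (Function.update ε i0 e i - y i) * a i k = ∑ i ∈ s, (ε i - y i) * a i k :=
      fun s k hs => sum_congr rfl fun i hi => by
        rw [Function.update_of_ne (ne_of_mem_of_not_mem hi hs)]
    have hmono : ∑ i ∈ F.erase i0, ∑ k, a i k ^ 2 ≤ ∑ i ∈ F, ∑ k, a i k ^ 2 :=
      sum_le_sum_of_subset_of_nonneg (erase_subset _ _)
        fun i _ _ => sum_nonneg fun k _ => sq_nonneg _
    by_cases hp : pc i0 ≤ p
    · have hall : F.filter (fun i => pc i ≤ p) = F :=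
        filter_true_of_mem fun i hi => (hmax i hi).trans hp
      have hall' : (F.erase i0).filter (fun i => pc i ≤ p) = F.erase i0 :=
        filter_true_of_mem fun i hi => (hmax i (mem_of_mem_erase hi)).trans hp
      have h := hb p
      rw [hall'] at h
      rw [hall]
      have ek : ∀ k, ∑ i ∈ F, (Function.update ε i0 e i - y i) * a i k =
          (e - y i0) * a i0 k + S k := fun k => by
        rw [← add_sum_erase F _ hi0, Function.update_self, hoff _ _ (notMem_erase _ _)]
      simp only [ek, ← add_sum_erase F (fun i => ∑ k, a i k ^ 2) hi0]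
      have : ∑ k, ((e - y i0) * a i0 k + S k) ^ 2 = (e - y i0) ^ 2 * (∑ k, a i0 k ^ 2)
          + 2 * ((e - y i0) * ∑ k, S k * a i0 k) + ∑ k, S k ^ 2 := by
        simp only [mul_sum, ← sum_add_distrib]
        exact sum_congr rfl fun k _ => by ring
      rw [this]
      nlinarith [mul_le_mul_of_nonneg_right hd2 (sum_nonneg (s := (univ : Finset (Fin D)))
        fun k _ => sq_nonneg (a i0 k)), h]
    · have hall : F.filter (fun i => pc i ≤ p) = (F.erase i0).filter (fun i => pc i ≤ p) := by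
        ext i; simp only [mem_filter, mem_erase]
        exact ⟨fun h => ⟨⟨fun he' => hp (he' ▸ h.2), h.1⟩, h.2⟩, fun h => ⟨h.1.2, h.2⟩⟩
      rw [hall]
      have hni : i0 ∉ (F.erase i0).filter (fun i => pc i ≤ p) := fun h => hp (mem_filter.1 h).2
      simp only [hoff _ _ hni]
      linarith [hb p]

/-- Triangle bound for the leftovers. -/
theorem leftover_bound {n : ℕ} {κ : Type*} (K : Finset κ) (F : Finset (Fin n)) (d : Fin n → ℝ)
    (hd : ∀ i ∈ F, |d i| ≤ 2) {r : ℕ} (hF : F.card ≤ r) (a : Fin n → κ → ℝ) {Z : ℝ} (hZ : 0 ≤ Z)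
    (ha : ∀ i ∈ F, ∑ k ∈ K, a i k ^ 2 ≤ Z) :
    ∑ k ∈ K, (∑ i ∈ F, d i * a i k) ^ 2 ≤ 4 * (r:ℝ) ^ 2 * Z := by
  calc ∑ k ∈ K, (∑ i ∈ F, d i * a i k) ^ 2 ≤ ∑ k ∈ K, (F.card : ℝ) * ∑ i ∈ F, 4 * a i k ^ 2 := by
        refine sum_le_sum fun k _ => (sq_sum_le_card_mul_sum_sq (s := F)).trans ?_
        refine mul_le_mul_of_nonneg_left (sum_le_sum fun i hi => ?_) (Nat.cast_nonneg _)
        have := abs_le.1 (hd i hi)
        have : d i ^ 2 ≤ 4 := by nlinarith
        nlinarith [mul_le_mul_of_nonneg_right this (sq_nonneg (a i k))]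
    _ = 4 * F.card * ∑ i ∈ F, ∑ k ∈ K, a i k ^ 2 := by
        simp only [mul_sum]; rw [sum_comm]
        exact sum_congr rfl fun i _ => sum_congr rfl fun k _ => by ring
    _ ≤ 4 * F.card * ∑ _i ∈ F, Z := mul_le_mul_of_nonneg_left (sum_le_sum ha) (by positivity)
    _ ≤ 4 * (r:ℝ) ^ 2 * Z := by
        have h1 : (F.card : ℝ) ≤ r := by exact_mod_cast hF
        rw [sum_const, nsmul_eq_mul]
        nlinarith [mul_le_mul h1 h1 (Nat.cast_nonneg _) (Nat.cast_nonneg r)]

end Vale.Agent.P262.St
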