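import Vale.Agent.P262.St.SignAux

/-! P262 St, module 3: functionals, protection and budgets of one signing (PROOF.md section 3). -/

namespace Vale.Agent.P262.St

open Finset

/-- The classes: strong per exponent, then five single tests, then the bounded functionals. -/
abbrev SCls (M ne : ℕ) (E : Type) : Type := (Fin M × E) ⊕ ((Fin M × Fin 4) ⊕ (Fin M × Fin ne))

/-- The coordinate space of a class. -/
abbrev SIdx (D : ℕ) : Type := Unit ⊕ (Fin D ⊕ (Fin D × Fin D))

lemma sum_sidx {D : ℕ} (f : SIdx D → ℝ) :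
    ∑ j, f j = f (Sum.inl ()) + (∑ k, f (Sum.inr (Sum.inl k)) + ∑ kk, f (Sum.inr (Sum.inr kk))) := by
  simp [Fintype.sum_sum_type]

variable {D n M ne : ℕ} (v : Fin n → Fin D → ℝ) (pc : Fin n → Fin M) (s : Fin D → ℤ)
  (a b θ U : ℤ) (wgt : Fin D → ℝ) (σ : ℤ → ℝ) (ω : Fin D → Fin D → ℝ) (T : Fin ne → Fin n → ℝ)

/-- Weight of a coordinate in the block of a class; the four single blocks are band prefix, weak
prefix, strong up to `U`, Gram. -/
noncomputable def sBlk {E : Type} (ev : E → ℤ) : SCls M ne E → Fin D → ℝ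
  | Sum.inl (_, e) => fun k => if θ ≤ s k ∧ s k = ev e then Real.sqrt (σ (ev e)) else 0
  | Sum.inr (Sum.inl (_, r)) => fun k =>
      if r = 0 then (if a ≤ s k ∧ s k < b then 1 else 0)
      else if r = 1 then (if s k < a then Real.sqrt (wgt k) else 0)
      else if r = 2 then (if θ ≤ s k ∧ s k ≤ U then 1 else 0)
      else 0
  | Sum.inr (Sum.inr _) => fun _ => 0

/-- Support of a class. -/
def sSupp {E : Type} : SCls M ne E → Fin n → Prop
  | Sum.inl (p, _) => fun i => pc i = p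
  | Sum.inr (Sum.inl (p, r)) => fun i => if r = 0 ∨ r = 1 then pc i ≤ p else pc i = p
  | Sum.inr (Sum.inr (p, _)) => fun i => pc i = p

/-- Owner test of a class. -/
def sTst {E : Type} : SCls M ne E → Fin M × (Fin 5 ⊕ Fin ne)
  | Sum.inl (p, _) => (p, Sum.inl 4)
  | Sum.inr (Sum.inl (p, r)) => (p, Sum.inl r.castSucc)
  | Sum.inr (Sum.inr (p, j)) => (p, Sum.inr j)

open Classical in
/-- The scalar functionals. -/
noncomputable def sFun {E : Type} (ev : E → ℤ) (h : SCls M ne E) : SIdx D → Fin n → ℝ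
  | Sum.inl _ => fun i => match h with
      | Sum.inr (Sum.inr (p, j)) => if pc i = p then T j i else 0
      | _ => 0
  | Sum.inr (Sum.inl k) => fun i =>
      if sSupp pc h i then sBlk s a b θ U wgt σ ev h k * v i k else 0
  | Sum.inr (Sum.inr kk) => fun i => match h with
      | Sum.inr (Sum.inl (p, r)) => if r = 3 ∧ pc i = p then ω kk.1 kk.2 * (v i kk.1 * v i kk.2) else 0
      | _ => 0

/-- Number of strong coordinates with exponent at most `u`. -/
def sTop (u : ℤ) : ℕ := (univ.filter fun k => θ ≤ s k ∧ s k ≤ u).card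

/-- Threshold of the prefix tests. -/
def thrPre (Q : ℕ) : ℕ := 4 * ((univ.filter fun k => a ≤ s k ∧ s k < b).card + 2 * Q + 1)

/-- Threshold of the strong tests. -/
def thrPie (Q : ℕ) (u : ℤ) : ℕ :=
  4 * ((univ.filter fun k => a ≤ s k ∧ s k < b).card + sTop s θ u + 2 * Q + 1)

/-- Protection of a class. -/
def sProt {E : Type} (ev : E → ℤ) (Q : ℕ) : SCls M ne E → Finset (Fin n) → Prop
  | Sum.inl (p, e), S => thrPie s a b θ Q (ev e) < (S.filter fun i => pc i = p).card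
  | Sum.inr (Sum.inl (p, r)), S =>
      (r = 0 ∧ thrPre s a b Q < (S.filter fun i => pc i ≤ p).card) ∨
      (r = 2 ∧ thrPie s a b θ Q U < (S.filter fun i => pc i = p).card)
  | Sum.inr (Sum.inr _), _ => False

/-- Budget of a class. -/
noncomputable def sW {E : Type} (ev : E → ℤ) (Q : ℕ) : SCls M ne E → ℝ
  | Sum.inl (_, e) => σ (ev e) * thrPie s a b θ Q (ev e)
  | Sum.inr (Sum.inl (p, r)) =>
      if r = 0 then thrPre s a b Q
      else if r = 1 then ∑ i, ∑ k ∈ univ.filter (fun k => s k < a), wgt k * v i k ^ 2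
      else if r = 2 then thrPie s a b θ Q U
      else ∑ k, ∑ k', ω k k' ^ 2 * ∑ i ∈ univ.filter (fun i => pc i = p), v i k ^ 2 * v i k' ^ 2
  | Sum.inr (Sum.inr (p, j)) => ∑ i ∈ univ.filter (fun i => pc i = p), T j i

lemma fin4_cases (r : Fin 4) : r = 0 ∨ r = 1 ∨ r = 2 ∨ r = 3 := by fin_cases r <;> simp

lemma sW_nonneg {E : Type} (ev : E → ℤ) (Q : ℕ) (hwgt : ∀ k, 0 ≤ wgt k) (hσ : ∀ u, 0 ≤ σ u)
    (hT : ∀ j i, 0 ≤ T j i ∧ T j i ≤ 1) (h : SCls M ne E) :
    0 ≤ sW v pc s a b θ U wgt σ ω T ev Q h := by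
  rcases h with ⟨p, e⟩ | ⟨p, r⟩ | ⟨p, j⟩
  · exact mul_nonneg (hσ _) (Nat.cast_nonneg _)
  · simp only [sW]
    split_ifs
    · exact Nat.cast_nonneg _
    · exact sum_nonneg fun i _ => sum_nonneg fun k _ => mul_nonneg (hwgt k) (sq_nonneg _)
    · exact Nat.cast_nonneg _
    · exact sum_nonneg fun k _ => sum_nonneg fun k' _ =>
        mul_nonneg (sq_nonneg _) (sum_nonneg fun i _ => mul_nonneg (sq_nonneg _) (sq_nonneg _))
  · exact sum_nonneg fun i _ => (hT j i).1

lemma sProt_mono {E : Type} (ev : E → ℤ) (Q : ℕ) (h : SCls M ne E) (S S' : Finset (Fin n))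
    (hS : S ⊆ S') (hp : sProt pc s a b θ U ev Q h S) : sProt pc s a b θ U ev Q h S' := by
  rcases h with ⟨p, e⟩ | ⟨p, r⟩ | ⟨p, j⟩
  · exact lt_of_lt_of_le hp (card_le_card (filter_subset_filter _ hS))
  · exact hp.imp (fun h => ⟨h.1, lt_of_lt_of_le h.2 (card_le_card (filter_subset_filter _ hS))⟩)
      (fun h => ⟨h.1, lt_of_lt_of_le h.2 (card_le_card (filter_subset_filter _ hS))⟩)
  · exact hp

/-- A block of coordinates over a set of items. -/
lemma block_le (hv : ∀ i, sq (v i) = 1) (S : Finset (Fin n)) (P : Fin n → Prop) [DecidablePred P]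
    (f : Fin D → ℝ) (w : ℝ) (hw : 0 ≤ w) (hf : ∀ k, f k = 0 ∨ f k ^ 2 = w) (m : ℕ)
    (hm : (S.filter P).card ≤ m) :
    ∑ k, ∑ i ∈ S, (if P i then f k * v i k else 0) ^ 2 ≤ w * m := by
  rw [sum_comm]
  calc ∑ i ∈ S, ∑ k, (if P i then f k * v i k else 0) ^ 2
      ≤ ∑ i ∈ S, (if P i then w else 0) := by
        refine sum_le_sum fun i _ => ?_
        by_cases hi : P i
        · simp only [if_pos hi]
          refine le_trans (sum_le_sum (g := fun k => w * v i k ^ 2) fun k _ => ?_) ?_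
          · rw [mul_pow]
            rcases hf k with h | h
            · rw [h]; nlinarith [mul_nonneg hw (sq_nonneg (v i k))]
            · rw [h]
          · rw [← mul_sum]
            exact le_of_eq (by rw [show ∑ k, v i k ^ 2 = 1 from hv i, mul_one])
        · simp [if_neg hi]
    _ = w * (S.filter P).card := by rw [← sum_filter, sum_const, nsmul_eq_mul, mul_comm]
    _ ≤ w * m := mul_le_mul_of_nonneg_left (by exact_mod_cast hm) hw

lemma sBlk_weak {E : Type} (ev : E → ℤ) (p : Fin M) (k : Fin D) :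
    sBlk (ne := ne) s a b θ U wgt σ ev (Sum.inr (Sum.inl (p, 1))) k =
      if s k < a then Real.sqrt (wgt k) else 0 := rfl

/-- An unprotected class has small mass. -/
lemma budget_exp {E : Type} (ev : E → ℤ) (Q : ℕ) (hv : ∀ i, sq (v i) = 1) (hσ : ∀ u, 0 ≤ σ u)
    (p : Fin M) (e : E) (S : Finset (Fin n))
    (hS : ¬ sProt pc s a b θ U ev Q (Sum.inl (p, e) : SCls M ne E) S) :
    ∑ j, ∑ i ∈ S, sFun v pc s a b θ U wgt σ ω T ev (Sum.inl (p, e)) j i ^ 2
      ≤ sW v pc s a b θ U wgt σ ω T ev Q (Sum.inl (p, e)) := by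
  have h := block_le v hv S (fun i => pc i = p)
    (fun k => if θ ≤ s k ∧ s k = ev e then Real.sqrt (σ (ev e)) else 0) (σ (ev e)) (hσ _)
    (fun k => by
      by_cases hk : θ ≤ s k ∧ s k = ev e
      · exact Or.inr (by rw [if_pos hk, Real.sq_sqrt (hσ _)])
      · exact Or.inl (if_neg hk))
    _ (not_lt.1 hS)
  rw [sum_sidx]
  simp only [sFun, sSupp, sBlk, sW, zero_pow two_ne_zero, sum_const_zero, zero_add, add_zero]
  exact le_of_eq_of_le (sum_congr rfl fun k _ => sum_congr rfl fun i _ => by by_cases hi : pc i = p <;> simp [hi]) h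

lemma budget_band {E : Type} (ev : E → ℤ) (Q : ℕ) (hv : ∀ i, sq (v i) = 1)
    (p : Fin M) (S : Finset (Fin n))
    (hS : ¬ sProt pc s a b θ U ev Q (Sum.inr (Sum.inl (p, 0)) : SCls M ne E) S) :
    ∑ j, ∑ i ∈ S, sFun v pc s a b θ U wgt σ ω T ev (Sum.inr (Sum.inl (p, 0))) j i ^ 2
      ≤ sW v pc s a b θ U wgt σ ω T ev Q (Sum.inr (Sum.inl (p, 0))) := by
  have h := block_le v hv S (fun i => pc i ≤ p) (fun k => if a ≤ s k ∧ s k < b then 1 else 0) 1
    zero_le_one (fun k => by by_cases hk : a ≤ s k ∧ s k < b <;> simp [hk])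
    _ (not_lt.1 fun h => hS (Or.inl ⟨rfl, h⟩))
  rw [sum_sidx]
  simp only [sFun, sSupp, sBlk, sW, Fin.isValue, Fin.reduceEq, if_true, true_or, false_and,
    if_false, zero_pow two_ne_zero, sum_const_zero, zero_add, add_zero]
  simpa using h

lemma budget_weak {E : Type} (ev : E → ℤ) (Q : ℕ) (hwgt : ∀ k, 0 ≤ wgt k)
    (p : Fin M) (S : Finset (Fin n)) :
    ∑ j, ∑ i ∈ S, sFun v pc s a b θ U wgt σ ω T ev
        (Sum.inr (Sum.inl (p, 1)) : SCls M ne E) j i ^ 2
      ≤ sW v pc s a b θ U wgt σ ω T ev Q (Sum.inr (Sum.inl (p, 1)) : SCls M ne E) := by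
  rw [sum_sidx]
  simp only [sFun, sSupp, sBlk, sW, Fin.isValue, Fin.reduceEq, if_true, or_true, false_and,
    if_false, zero_pow two_ne_zero, sum_const_zero, zero_add, add_zero]
  rw [sum_comm]
  refine (sum_le_sum fun i _ => ?_).trans (sum_le_sum_of_subset_of_nonneg (subset_univ S)
    fun i _ _ => sum_nonneg fun k _ => mul_nonneg (hwgt k) (sq_nonneg _))
  rw [sum_filter]
  refine sum_le_sum fun k _ => ?_
  have h0 := mul_nonneg (hwgt k) (sq_nonneg (v i k))
  by_cases hk : s k < a <;> by_cases hi : pc i ≤ p <;>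
    simp [hk, hi, mul_pow, Real.sq_sqrt (hwgt k), h0]

lemma budget_top {E : Type} (ev : E → ℤ) (Q : ℕ) (hv : ∀ i, sq (v i) = 1)
    (p : Fin M) (S : Finset (Fin n))
    (hS : ¬ sProt pc s a b θ U ev Q (Sum.inr (Sum.inl (p, 2)) : SCls M ne E) S) :
    ∑ j, ∑ i ∈ S, sFun v pc s a b θ U wgt σ ω T ev (Sum.inr (Sum.inl (p, 2))) j i ^ 2
      ≤ sW v pc s a b θ U wgt σ ω T ev Q (Sum.inr (Sum.inl (p, 2))) := by
  have h := block_le v hv S (fun i => pc i = p) (fun k => if θ ≤ s k ∧ s k ≤ U then 1 else 0) 1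
    zero_le_one (fun k => by by_cases hk : θ ≤ s k ∧ s k ≤ U <;> simp [hk])
    _ (not_lt.1 fun h => hS (Or.inr ⟨rfl, h⟩))
  rw [sum_sidx]
  simp only [sFun, sSupp, sBlk, sW, Fin.isValue, Fin.reduceEq, if_true, or_self, false_and,
    if_false, zero_pow two_ne_zero, sum_const_zero, zero_add, add_zero]
  simpa using h

lemma budget_gram {E : Type} (ev : E → ℤ) (Q : ℕ) (p : Fin M) (S : Finset (Fin n)) :
    ∑ j, ∑ i ∈ S, sFun v pc s a b θ U wgt σ ω T ev
        (Sum.inr (Sum.inl (p, 3)) : SCls M ne E) j i ^ 2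
      ≤ sW v pc s a b θ U wgt σ ω T ev Q (Sum.inr (Sum.inl (p, 3)) : SCls M ne E) := by
  rw [sum_sidx]
  simp only [sFun, sSupp, sBlk, sW, Fin.isValue, Fin.reduceEq, or_self, true_and, if_false,
    zero_mul, ite_self, zero_pow two_ne_zero, sum_const_zero, zero_add]
  rw [Fintype.sum_prod_type]
  refine sum_le_sum fun k _ => sum_le_sum fun k' _ => ?_
  rw [mul_sum]
  refine (le_of_eq ?_).trans (sum_le_sum_of_subset_of_nonneg
    (filter_subset_filter _ (subset_univ S))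
    fun i _ _ => mul_nonneg (sq_nonneg _) (mul_nonneg (sq_nonneg _) (sq_nonneg _)))
  rw [sum_filter]
  exact sum_congr rfl fun i _ => by split_ifs <;> ring

lemma budget_fun {E : Type} (ev : E → ℤ) (Q : ℕ) (hT : ∀ j i, 0 ≤ T j i ∧ T j i ≤ 1)
    (p : Fin M) (j : Fin ne) (S : Finset (Fin n)) :
    ∑ jj, ∑ i ∈ S, sFun v pc s a b θ U wgt σ ω T ev
        (Sum.inr (Sum.inr (p, j)) : SCls M ne E) jj i ^ 2
      ≤ sW v pc s a b θ U wgt σ ω T ev Q (Sum.inr (Sum.inr (p, j)) : SCls M ne E) := by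
  rw [sum_sidx]
  simp only [sFun, sBlk, sW, zero_mul, ite_self, zero_pow two_ne_zero, sum_const_zero, add_zero]
  refine le_trans ?_ (sum_le_sum_of_subset_of_nonneg (filter_subset_filter _ (subset_univ S))
    fun i _ _ => (hT j i).1)
  rw [sum_filter]
  refine sum_le_sum fun i _ => ?_
  have := hT j i
  split_ifs
  · nlinarith
  · simp

lemma sFun_budget {E : Type} (ev : E → ℤ) (Q : ℕ) (hv : ∀ i, sq (v i) = 1)
    (hwgt : ∀ k, 0 ≤ wgt k) (hσ : ∀ u, 0 ≤ σ u) (hT : ∀ j i, 0 ≤ T j i ∧ T j i ≤ 1)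
    (h : SCls M ne E) (S : Finset (Fin n)) (hS : ¬ sProt pc s a b θ U ev Q h S) :
    ∑ j, ∑ i ∈ S, sFun v pc s a b θ U wgt σ ω T ev h j i ^ 2
      ≤ sW v pc s a b θ U wgt σ ω T ev Q h := by
  rcases h with ⟨p, e⟩ | ⟨p, r⟩ | ⟨p, j⟩
  · exact budget_exp v pc s a b θ U wgt σ ω T ev Q hv hσ p e S hS
  · rcases fin4_cases r with rfl | rfl | rfl | rfl
    · exact budget_band v pc s a b θ U wgt σ ω T ev Q hv p S hS
    · exact budget_weak v pc s a b θ U wgt σ ω T ev Q hwgt p S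
    · exact budget_top v pc s a b θ U wgt σ ω T ev Q hv p S hS
    · exact budget_gram v pc s a b θ U wgt σ ω T ev Q p S
  · exact budget_fun v pc s a b θ U wgt σ ω T ev Q hT p j S

end Vale.Agent.P262.St
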