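import Mathlib
import Vale.Agent.P262.St.Interface

/-! P262, Steinitz: `SignExists` restricted to a subset of the items. -/

namespace Vale.Agent.P262.St

open Finset
open Classical

/-- Transfer of a filtered sum along an enumeration of `F`. -/
theorem sum_enum {n : ℕ} (F : Finset (Fin n)) (P : Fin n → Prop) [DecidablePred P] (f : Fin n → ℝ) :
    ∑ j ∈ univ.filter (fun j : Fin F.card => P (F.equivFin.symm j).1), f (F.equivFin.symm j).1
      = ∑ i ∈ F.filter P, f i := by
  rw [Finset.sum_filter, Finset.sum_filter, ← Finset.sum_coe_sort F (fun i => if P i then f i else 0)]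
  exact Equiv.sum_comp F.equivFin.symm (fun i : ↥F => if P i.1 then f i.1 else 0)

/-- `SignExists` on the items of `F`. -/
theorem sign_on (h : SignExists) :
    ∃ K : ℝ, 0 ≤ K ∧ ∀ (D n M ne : ℕ) (v : Fin n → Fin D → ℝ) (F : Finset (Fin n)) (pc : Fin n → Fin M)
      (x : Fin n → ℝ) (s : Fin D → ℤ) (a b θ U : ℤ) (wgt : Fin D → ℝ) (σ : ℤ → ℝ)
      (ω : Fin D → Fin D → ℝ) (T : Fin ne → Fin n → ℝ),
      1 ≤ M → (∀ i, sq (v i) = 1) → (∀ i ∈ F, |x i| ≤ 1) → a ≤ b → a ≤ θ →
      (∀ k, 0 ≤ wgt k) → (∀ u, 0 ≤ σ u) → (∀ j i, 0 ≤ T j i ∧ T j i ≤ 1) →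
      let B := univ.filter (fun k => a ≤ s k ∧ s k < b)
      let Sg := univ.filter (fun k => θ ≤ s k)
      let q : ℝ := M * (ne + 5)
      ∃ ε : Fin n → ℝ, (∀ i, ε i = 1 ∨ ε i = -1) ∧
        (∀ p : Fin M, ∑ k ∈ B, (∑ i ∈ F.filter (fun i => pc i ≤ p), (ε i - x i) * v i k) ^ 2
          ≤ K * (B.card + q ^ 2)) ∧
        (∀ p : Fin M, ∑ k ∈ univ.filter (fun k => s k < a),
            wgt k * (∑ i ∈ F.filter (fun i => pc i ≤ p), (ε i - x i) * v i k) ^ 2
          ≤ K * ∑ i ∈ F, ∑ k ∈ univ.filter (fun k => s k < a), wgt k * v i k ^ 2) ∧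
        (∀ p : Fin M, ∑ k ∈ Sg, σ (s k) * (∑ i ∈ F.filter (fun i => pc i = p),
            (ε i - x i) * v i k) ^ 2
          ≤ K * ∑ u ∈ Sg.image s,
              σ u * (B.card + (univ.filter fun k => θ ≤ s k ∧ s k ≤ u).card + q ^ 2)) ∧
        (∀ p : Fin M, ∑ k ∈ univ.filter (fun k => θ ≤ s k ∧ s k ≤ U),
            (∑ i ∈ F.filter (fun i => pc i = p), (ε i - x i) * v i k) ^ 2
          ≤ K * (B.card + (univ.filter fun k => θ ≤ s k ∧ s k ≤ U).card + q ^ 2)) ∧
        (∀ p : Fin M, ∀ W Z : ℝ, 0 ≤ Z →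
          (∑ k, ∑ k', ω k k' ^ 2 * ∑ i ∈ F.filter (fun i => pc i = p),
            v i k ^ 2 * v i k' ^ 2) ≤ W →
          (∀ i ∈ F, ∑ k, ∑ k', ω k k' ^ 2 * (v i k ^ 2 * v i k' ^ 2) ≤ Z) →
          ∑ k, ∑ k', (ω k k' * ∑ i ∈ F.filter (fun i => pc i = p),
            (ε i - x i) * (v i k * v i k')) ^ 2 ≤ K * (W + q ^ 2 * Z)) ∧
        (∀ p : Fin M, ∀ j, (∑ i ∈ F.filter (fun i => pc i = p), (ε i - x i) * T j i) ^ 2
          ≤ K * ((∑ i ∈ F.filter (fun i => pc i = p), T j i) + q ^ 2)) := by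
  obtain ⟨K₀, hK⟩ := h
  refine ⟨max K₀ 0, le_max_right _ _, ?_⟩
  intro D n M ne v F pc x s a b θ U wgt σ ω T hM hv hx hab haθ hwgt hσ hT
  dsimp only
  have up : ∀ {A R : ℝ}, A ≤ K₀ * R → 0 ≤ R → A ≤ max K₀ 0 * R :=
    fun hA hR => hA.trans (mul_le_mul_of_nonneg_right (le_max_left _ _) hR)
  obtain ⟨ε, hε, ha, hb, hc, hc', hd, he⟩ :=
    hK D F.card M ne (fun j => v (F.equivFin.symm j).1) (fun j => pc (F.equivFin.symm j).1)
      (fun j => x (F.equivFin.symm j).1) s a b θ U wgt σ ω (fun t j => T t (F.equivFin.symm j).1)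
      hM (fun j => hv _) (fun j => hx _ (F.equivFin.symm j).2) hab haθ hwgt hσ
      (fun t j => hT t _)
  let ε' : Fin n → ℝ := fun i => if hi : i ∈ F then ε (F.equivFin ⟨i, hi⟩) else 1
  have hε' : ∀ j, ε j = ε' (F.equivFin.symm j).1 := by
    intro j
    show _ = dite _ _ _
    rw [dif_pos (F.equivFin.symm j).2]
    simp
  have tr : ∀ (P : Fin n → Prop) [DecidablePred P] (f : Fin n → ℝ),
      ∑ j ∈ univ.filter (fun j : Fin F.card => P (F.equivFin.symm j).1),
        (ε j - x (F.equivFin.symm j).1) * f (F.equivFin.symm j).1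
        = ∑ i ∈ F.filter P, (ε' i - x i) * f i := by
    intro P _ f
    rw [← sum_enum F P (fun i => (ε' i - x i) * f i)]
    exact Finset.sum_congr rfl fun j _ => by rw [hε' j]
  have trv : ∀ (P : Fin n → Prop) [DecidablePred P] (k : Fin D),
      ∑ j ∈ univ.filter (fun j : Fin F.card => P (F.equivFin.symm j).1),
        (ε j - x (F.equivFin.symm j).1) * v (F.equivFin.symm j).1 k
        = ∑ i ∈ F.filter P, (ε' i - x i) * v i k := fun P _ k => tr P (fun i => v i k)
  have trw : ∀ (P : Fin n → Prop) [DecidablePred P] (k k' : Fin D),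
      ∑ j ∈ univ.filter (fun j : Fin F.card => P (F.equivFin.symm j).1),
        (ε j - x (F.equivFin.symm j).1) * (v (F.equivFin.symm j).1 k * v (F.equivFin.symm j).1 k')
        = ∑ i ∈ F.filter P, (ε' i - x i) * (v i k * v i k') :=
    fun P _ k k' => tr P (fun i => v i k * v i k')
  have tr0 : ∀ f : Fin n → ℝ, ∑ j, f (F.equivFin.symm j).1 = ∑ i ∈ F, f i := by
    intro f
    rw [← Finset.sum_coe_sort F f]
    exact Equiv.sum_comp F.equivFin.symm (fun i : ↥F => f i.1)
  refine ⟨ε', ?_, ?_, ?_, ?_, ?_, ?_, ?_⟩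
  · intro i
    show dite _ _ _ = 1 ∨ dite _ _ _ = -1
    split_ifs
    · exact hε _
    · exact Or.inl rfl
  · intro p
    have h := ha p
    simp only [trv (fun i => pc i ≤ p)] at h
    exact up h (add_nonneg (Nat.cast_nonneg _) (sq_nonneg _))
  · intro p
    have h := hb p
    simp only [trv (fun i => pc i ≤ p)] at h
    rw [tr0 (fun i => ∑ k ∈ univ.filter (fun k => s k < a), wgt k * v i k ^ 2)] at h
    exact up h (Finset.sum_nonneg fun i _ => Finset.sum_nonneg fun k _ =>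
      mul_nonneg (hwgt k) (sq_nonneg _))
  · intro p
    have h := hc p
    rw [Finset.sum_congr rfl (fun k _ => by rw [trv (fun i => pc i = p) k])] at h
    exact up h (Finset.sum_nonneg fun u _ => mul_nonneg (hσ u) (add_nonneg (add_nonneg (Nat.cast_nonneg _) (Nat.cast_nonneg _)) (sq_nonneg _)))
  · intro p
    have h := hc' p
    rw [Finset.sum_congr rfl (fun k _ => by rw [trv (fun i => pc i = p) k])] at h
    exact up h (add_nonneg (add_nonneg (Nat.cast_nonneg _) (Nat.cast_nonneg _)) (sq_nonneg _))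
  · intro p W Z hZ hW hZi
    have hW0 : 0 ≤ W := le_trans (Finset.sum_nonneg fun k _ => Finset.sum_nonneg fun k' _ =>
      mul_nonneg (sq_nonneg _) (Finset.sum_nonneg fun i _ =>
        mul_nonneg (sq_nonneg _) (sq_nonneg _))) hW
    have h := hd p W Z hZ (by
        refine le_trans (le_of_eq ?_) hW
        refine Finset.sum_congr rfl fun k _ => Finset.sum_congr rfl fun k' _ => ?_
        rw [sum_enum F (fun i => pc i = p) (fun i => v i k ^ 2 * v i k' ^ 2)])
      (fun j => hZi _ (F.equivFin.symm j).2)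
    rw [Finset.sum_congr rfl (fun k _ => Finset.sum_congr rfl (fun k' _ => by
      rw [trw (fun i => pc i = p) k k']))] at h
    exact up h (by positivity)
  · intro p t
    have h := he p t
    simp only [tr (fun i => pc i = p) (fun i => T t i)] at h
    rw [sum_enum F (fun i => pc i = p) (fun i => T t i)] at h
    exact up h (add_nonneg (Finset.sum_nonneg fun i _ => (hT t i).1) (sq_nonneg _))

end Vale.Agent.P262.St
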