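import Vale.Agent.P262.St.SignDefs

/-! P262 St, module 3: the policy of one signing: at most a quarter of the rows of an active set. -/

namespace Vale.Agent.P262.St

open Finset

variable {D n M ne : ℕ} (v : Fin n → Fin D → ℝ) (pc : Fin n → Fin M) (s : Fin D → ℤ)
  (a b θ U : ℤ) (wgt : Fin D → ℝ) (σ : ℤ → ℝ) (ω : Fin D → Fin D → ℝ) (T : Fin ne → Fin n → ℝ)

/-- A protected class is killed by coordinate rows on `Act` if its support contains or misses `Act`. -/
lemma sign_kill {E : Type} (ev : E → ℤ) (Q : ℕ) (h : SCls M ne E) (S : Finset (Fin n))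
    (hp : sProt pc s a b θ U ev Q h S) (Act : Finset (Fin n)) (R : Finset (Fin D))
    (hR : (∀ i ∈ Act, sSupp pc h i) → ∀ k, sBlk s a b θ U wgt σ ev h k ≠ 0 → k ∈ R)
    (hAct : (∀ i ∈ Act, sSupp pc h i) ∨ (∀ i ∈ Act, ¬ sSupp pc h i))
    (j : SIdx D) (u : Fin n → ℝ) (hu : ∀ i, i ∉ Act → u i = 0)
    (hrow : ∀ k : {k // k ∈ R}, ∑ i, v i k * u i = 0) :
    ∑ i, sFun v pc s a b θ U wgt σ ω T ev h j i * u i = 0 := by
  rcases j with _ | k | kk
  · rcases h with ⟨p, e⟩ | ⟨p, r⟩ | ⟨p, j'⟩
    · simp [sFun]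
    · simp [sFun]
    · exact hp.elim
  · simp only [sFun]
    rcases hAct with hin | hout
    · by_cases hk : sBlk s a b θ U wgt σ ev h k = 0
      · simp [hk]
      · calc _ = sBlk s a b θ U wgt σ ev h k * ∑ i, v i k * u i := by
              rw [mul_sum]
              refine sum_congr rfl fun i _ => ?_
              by_cases hi : i ∈ Act
              · rw [if_pos (hin i hi)]; ring
              · rw [hu i hi]; ring
          _ = 0 := by rw [hrow ⟨k, hR hin k hk⟩, mul_zero]
    · refine sum_eq_zero fun i _ => ?_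
      by_cases hi : i ∈ Act
      · rw [if_neg (hout i hi), zero_mul]
      · rw [hu i hi, mul_zero]
  · rcases h with ⟨p, e⟩ | ⟨p, r⟩ | ⟨p, j'⟩
    · simp [sFun]
    · rcases hp with ⟨rfl, -⟩ | ⟨rfl, -⟩ <;> simp [sFun]
    · simp [sFun]

/-- Case of a large piece. -/
lemma policy_piece {E : Type} (ev : E → ℤ) (Q : ℕ) (S : Finset (Fin n)) (p0 : Fin M)
    (hp0 : thrPre s a b Q < (S.filter fun i => pc i = p0).card) :
    ∃ (Act : Finset (Fin n)) (κ : Type) (_ : Fintype κ) (row : κ → Fin n → ℝ),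
      Act ⊆ S ∧ 2 * (Fintype.card κ + 2 * Q + 1) ≤ Act.card ∧
      ∀ h : SCls M ne E, sProt pc s a b θ U ev Q h S → ∀ j, ∀ u : Fin n → ℝ,
        (∀ i, i ∉ Act → u i = 0) → (∀ k, ∑ i, row k i * u i = 0) →
        ∑ i, sFun v pc s a b θ U wgt σ ω T ev h j i * u i = 0 := by
  classical
  set A := S.filter fun i => pc i = p0 with hA
  set B := univ.filter (fun k => a ≤ s k ∧ s k < b) with hB
  set R' := univ.filter (fun k => θ ≤ s k ∧ thrPie s a b θ Q (s k) < A.card) with hR'
  refine ⟨A, {k // k ∈ B ∪ R'}, inferInstance, fun k i => v i k, filter_subset _ _, ?_, ?_⟩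
  · rw [Fintype.card_coe]
    have h1 := card_union_le B R'
    have hp0' : 4 * (B.card + 2 * Q + 1) < A.card := hp0
    rcases R'.eq_empty_or_nonempty with he | hne
    · rw [he, card_empty] at h1
      rw [he]
      omega
    · obtain ⟨k0, hk0, hk0max⟩ := R'.exists_max_image s hne
      have h2 : 4 * (B.card + sTop s θ (s k0) + 2 * Q + 1) < A.card := (mem_filter.1 hk0).2.2
      have h3 : R'.card ≤ sTop s θ (s k0) := card_le_card fun k hk => by
        simp only [mem_filter, mem_univ, true_and]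
        exact ⟨(mem_filter.1 hk).2.1, hk0max k hk⟩
      omega
  · intro h hp j u hu hrow
    refine sign_kill v pc s a b θ U wgt σ ω T ev Q h S hp A (B ∪ R') ?_ ?_ j u hu hrow
    · intro hin k hk
      obtain ⟨i0, hi0⟩ := card_pos.1 (lt_of_le_of_lt (Nat.zero_le _) hp0)
      have hi0p : pc i0 = p0 := (mem_filter.1 hi0).2
      rcases h with ⟨p, e⟩ | ⟨p, r⟩ | ⟨p, j'⟩
      · simp only [sBlk, ne_eq, ite_eq_right_iff, not_forall] at hk
        obtain ⟨⟨hθk, hsk⟩, -⟩ := hk
        have hpp : p = p0 := (hin i0 hi0).symm.trans hi0p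
        subst hpp
        exact mem_union_right _ (mem_filter.2 ⟨mem_univ _, hθk, by rw [hsk]; exact hp⟩)
      · rcases hp with ⟨rfl, hp⟩ | ⟨rfl, hp⟩
        · simp only [sBlk, if_true, ne_eq, ite_eq_right_iff, not_forall] at hk
          exact mem_union_left _ (mem_filter.2 ⟨mem_univ _, hk.1⟩)
        · simp only [sBlk, Fin.isValue, Fin.reduceEq, if_false, if_true, ne_eq,
            ite_eq_right_iff, not_forall] at hk
          obtain ⟨⟨hθk, hkU⟩, -⟩ := hk
          have h2 := hin i0 hi0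
          simp only [sSupp, Fin.isValue, Fin.reduceEq, or_self, if_false] at h2
          have hpp : p = p0 := h2.symm.trans hi0p
          subst hpp
          refine mem_union_right _ (mem_filter.2 ⟨mem_univ _, hθk, lt_of_le_of_lt ?_ hp⟩)
          have : sTop s θ (s k) ≤ sTop s θ U := card_le_card fun k' hk' => by
            simp only [mem_filter, mem_univ, true_and] at hk' ⊢
            exact ⟨hk'.1, hk'.2.trans hkU⟩
          simp only [thrPie]; omega
      · exact hp.elim
    · rcases h with ⟨p, e⟩ | ⟨p, r⟩ | ⟨p, j'⟩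
      · by_cases hpp : p0 = p
        · exact Or.inl fun i hi => (mem_filter.1 hi).2.trans hpp
        · exact Or.inr fun i hi h => hpp ((mem_filter.1 hi).2.symm.trans h)
      · rcases hp with ⟨rfl, hp⟩ | ⟨rfl, hp⟩
        · by_cases hpp : p0 ≤ p
          · exact Or.inl fun i hi => by simp [sSupp, (mem_filter.1 hi).2, hpp]
          · exact Or.inr fun i hi => by simp [sSupp, (mem_filter.1 hi).2, hpp]
        · by_cases hpp : p0 = p
          · exact Or.inl fun i hi => by simp [sSupp, (mem_filter.1 hi).2, hpp]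
          · exact Or.inr fun i hi => by simp [sSupp, (mem_filter.1 hi).2, hpp]
      · exact hp.elim

lemma thrPre_le_thrPie (Q : ℕ) (u : ℤ) : thrPre s a b Q ≤ thrPie s a b θ Q u := by
  simp only [thrPre, thrPie]; omega

/-- The policy. -/
lemma sign_policy {E : Type} (ev : E → ℤ) (Q : ℕ) (S : Finset (Fin n))
    (hS : 4 * (2 * Q + 1) < S.card) :
    ∃ (Act : Finset (Fin n)) (κ : Type) (_ : Fintype κ) (row : κ → Fin n → ℝ),
      Act ⊆ S ∧ 2 * (Fintype.card κ + 2 * Q + 1) ≤ Act.card ∧
      ∀ h : SCls M ne E, sProt pc s a b θ U ev Q h S → ∀ j, ∀ u : Fin n → ℝ,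
        (∀ i, i ∉ Act → u i = 0) → (∀ k, ∑ i, row k i * u i = 0) →
        ∑ i, sFun v pc s a b θ U wgt σ ω T ev h j i * u i = 0 := by
  classical
  by_cases hbig : ∃ p, thrPre s a b Q < (S.filter fun i => pc i = p).card
  · obtain ⟨p0, hp0⟩ := hbig
    exact policy_piece v pc s a b θ U wgt σ ω T ev Q S p0 hp0
  push Not at hbig
  set B := univ.filter (fun k => a ≤ s k ∧ s k < b) with hB
  by_cases hpb : ∃ p, thrPre s a b Q < (S.filter fun i => pc i ≤ p).card
  · obtain ⟨m, hm, hmin⟩ := (univ.filter fun p => thrPre s a b Q <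
      (S.filter fun i => pc i ≤ p).card).exists_min_image id
        (hpb.elim fun p hp => ⟨p, mem_filter.2 ⟨mem_univ _, hp⟩⟩)
    have hm' : 4 * (B.card + 2 * Q + 1) < (S.filter fun i => pc i ≤ m).card := (mem_filter.1 hm).2
    refine ⟨S.filter fun i => pc i ≤ m, {k // k ∈ B}, inferInstance, fun k i => v i k,
      filter_subset _ _, ?_, ?_⟩
    · rw [Fintype.card_coe]; omega
    · intro h hp j u hu hrow
      rcases h with ⟨p, e⟩ | ⟨p, r⟩ | ⟨p, j'⟩
      · have h1 : thrPie s a b θ Q (ev e) < (S.filter fun i => pc i = p).card := hp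
        exact absurd h1 (not_lt.2 ((hbig p).trans (thrPre_le_thrPie s a b θ Q _)))
      · rcases hp with ⟨rfl, hp⟩ | ⟨rfl, hp⟩
        · refine sign_kill v pc s a b θ U wgt σ ω T ev Q (Sum.inr (Sum.inl (p, 0))) S
            (Or.inl ⟨rfl, hp⟩) _ B ?_ ?_ j u hu hrow
          · intro _ k hk
            simp only [sBlk, if_true, ne_eq, ite_eq_right_iff, not_forall] at hk
            exact mem_filter.2 ⟨mem_univ _, hk.1⟩
          · refine Or.inl fun i hi => ?_
            have := (mem_filter.1 hi).2.trans (hmin p (mem_filter.2 ⟨mem_univ _, hp⟩))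
            simpa [sSupp] using this
        · exact absurd hp (not_lt.2 ((hbig p).trans (thrPre_le_thrPie s a b θ Q _)))
      · exact hp.elim
  · push Not at hpb
    refine ⟨S, Empty, inferInstance, Empty.elim, subset_rfl, ?_, ?_⟩
    · simp only [Fintype.card_empty]; omega
    · intro h hp
      rcases h with ⟨p, e⟩ | ⟨p, r⟩ | ⟨p, j'⟩
      · have h1 : thrPie s a b θ Q (ev e) < (S.filter fun i => pc i = p).card := hp
        exact absurd h1 (not_lt.2 ((hbig p).trans (thrPre_le_thrPie s a b θ Q _)))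
      · rcases hp with ⟨rfl, hp⟩ | ⟨rfl, hp⟩
        · exact absurd hp (not_lt.2 (hpb p))
        · exact absurd hp (not_lt.2 ((hbig p).trans (thrPre_le_thrPie s a b θ Q _)))
      · exact hp.elim

end Vale.Agent.P262.St
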