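import Mathlib
import Vale.Agent.P262.St.Interface

/-! P262, Steinitz: the exact tilt (`TiltExists`). -/

namespace Vale.Agent.P262.St

open Finset

/-- `S`-part of the Gram operator of a family. -/
noncomputable def gramS {D n : ℕ} (v : Fin n → Fin D → ℝ) (S : Finset (Fin D)) :
    (↥S → ℝ) →ₗ[ℝ] (↥S → ℝ) where
  toFun h := fun k => ∑ i, v i k.1 * ∑ l, v i l.1 * h l
  map_add' h h' := by
    funext k
    simp [mul_add, Finset.sum_add_distrib]
  map_smul' r h := by
    funext k
    simp only [Pi.smul_apply, smul_eq_mul, RingHom.id_apply, Finset.mul_sum]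
    refine Finset.sum_congr rfl fun i _ => Finset.sum_congr rfl fun l _ => ?_
    ring

theorem tiltExists : TiltExists := by
  intro D n v S gh c hgh hG
  classical
  -- everything on the subtype of `S`
  have hG' : ∑ k : ↥S, ∑ l : ↥S,
      ((∑ i, v i k.1 * v i l.1) - if k.1 = l.1 then gh k.1 else 0) ^ 2 / (gh k.1 * gh l.1)
      ≤ 1 / 16 := by
    refine le_trans (le_of_eq ?_) hG
    rw [← Finset.sum_coe_sort S]
    refine Finset.sum_congr rfl fun k _ => ?_
    rw [← Finset.sum_coe_sort S]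
  have coercive : ∀ h : ↥S → ℝ, (3 / 4) * ∑ k, gh k.1 * h k ^ 2 ≤ ∑ k, h k * gramS v S h k := by
    intro h
    set E : ↥S → ↥S → ℝ := fun k l =>
      ((∑ i, v i k.1 * v i l.1) - if k.1 = l.1 then gh k.1 else 0) /
        (Real.sqrt (gh k.1) * Real.sqrt (gh l.1)) with hE
    set a : ↥S → ℝ := fun k => Real.sqrt (gh k.1) * h k with ha
    have hpos : ∀ k : ↥S, 0 < Real.sqrt (gh k.1) := fun k => Real.sqrt_pos.2 (hgh _)
    have h1 : ∑ k, h k * gramS v S h k
        = ∑ k, gh k.1 * h k ^ 2 + ∑ p : ↥S × ↥S, E p.1 p.2 * (a p.1 * a p.2) := by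
      rw [Fintype.sum_prod_type, ← Finset.sum_add_distrib]
      refine Finset.sum_congr rfl fun k _ => ?_
      have : ∀ l : ↥S, E k l * (a k * a l) =
          ((∑ i, v i k.1 * v i l.1) - if k.1 = l.1 then gh k.1 else 0) * (h k * h l) := by
        intro l
        have hk := (hpos k).ne'
        have hl := (hpos l).ne'
        simp only [hE, ha]
        field_simp
      simp only [this, sub_mul, Finset.sum_sub_distrib]
      have hd : ∑ l : ↥S, (if k.1 = l.1 then gh k.1 else 0) * (h k * h l) = gh k.1 * h k ^ 2 := by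
        rw [Finset.sum_eq_single k]
        · rw [if_pos rfl]; ring
        · intro l _ hl
          rw [if_neg (fun e => hl (Subtype.ext e.symm))]; ring
        · simp
      rw [hd, add_sub_cancel]
      show h k * ∑ i, v i k.1 * ∑ l, v i l.1 * h l = _
      simp only [Finset.mul_sum, Finset.sum_mul]
      rw [Finset.sum_comm]
      refine Finset.sum_congr rfl fun l _ => Finset.sum_congr rfl fun i _ => ?_
      ring
    have hsq : ∑ p : ↥S × ↥S, E p.1 p.2 ^ 2 ≤ 1 / 16 := by
      refine le_trans (le_of_eq ?_) hG'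
      rw [Fintype.sum_prod_type]
      refine Finset.sum_congr rfl fun k _ => Finset.sum_congr rfl fun l _ => ?_
      simp only [hE, div_pow, mul_pow, Real.sq_sqrt (hgh _).le]
    have hCS := Finset.sum_mul_sq_le_sq_mul_sq univ (fun p : ↥S × ↥S => E p.1 p.2)
      (fun p => a p.1 * a p.2)
    have haa : ∑ p : ↥S × ↥S, (a p.1 * a p.2) ^ 2 = (∑ k, gh k.1 * h k ^ 2) ^ 2 := by
      rw [Fintype.sum_prod_type, pow_two, Finset.sum_mul_sum]
      refine Finset.sum_congr rfl fun k _ => Finset.sum_congr rfl fun l _ => ?_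
      simp only [ha, mul_pow, Real.sq_sqrt (hgh _).le]
    rw [haa] at hCS
    have hX0 : 0 ≤ ∑ k : ↥S, gh k.1 * h k ^ 2 :=
      Finset.sum_nonneg fun k _ => mul_nonneg (hgh _).le (sq_nonneg _)
    rw [h1]
    set X := ∑ k : ↥S, gh k.1 * h k ^ 2
    set T := ∑ p : ↥S × ↥S, E p.1 p.2 * (a p.1 * a p.2)
    have hT : T ^ 2 ≤ (X / 4) ^ 2 := by nlinarith
    have := (abs_le.1 (abs_le_of_sq_le_sq hT (by positivity))).1
    linarith
  have hinj : Function.Injective (gramS v S) := by
    rw [injective_iff_map_eq_zero]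
    intro h hh
    have := coercive h
    rw [hh] at this
    simp only [Pi.zero_apply, mul_zero, Finset.sum_const_zero] at this
    funext k
    have hk : gh k.1 * h k ^ 2 ≤ ∑ k : ↥S, gh k.1 * h k ^ 2 :=
      Finset.single_le_sum (f := fun k : ↥S => gh k.1 * h k ^ 2)
        (fun j _ => mul_nonneg (hgh _).le (sq_nonneg _)) (Finset.mem_univ k)
    have h2 : gh k.1 * h k ^ 2 ≤ 0 := by linarith
    have h3 : h k ^ 2 = 0 := by
      have := hgh k.1
      nlinarith [sq_nonneg (h k)]
    exact pow_eq_zero_iff (by norm_num) |>.1 h3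
  obtain ⟨h, hh⟩ := (LinearMap.injective_iff_surjective.1 hinj) (fun k => c k.1)
  refine ⟨fun i => ∑ l, v i l.1 * h l, fun k hk => ?_, ?_⟩
  · have := congrFun hh ⟨k, hk⟩
    rw [← this]
    show _ = ∑ i, v i k * ∑ l, v i l.1 * h l
    refine Finset.sum_congr rfl fun i _ => ?_
    ring
  · have hx : ∑ i, (∑ l : ↥S, v i l.1 * h l) ^ 2 = ∑ k, h k * gramS v S h k := by
      show _ = ∑ k, h k * ∑ i, v i k.1 * ∑ l, v i l.1 * h l
      simp only [Finset.mul_sum]
      rw [Finset.sum_comm]
      refine Finset.sum_congr rfl fun i _ => ?_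
      rw [pow_two, Finset.sum_mul_sum]
      refine Finset.sum_congr rfl fun k _ => Finset.sum_congr rfl fun l _ => ?_
      ring
    have hC : ∑ k ∈ S, c k ^ 2 / gh k = ∑ k : ↥S, c k.1 ^ 2 / gh k.1 :=
      (Finset.sum_coe_sort S (fun k => c k ^ 2 / gh k)).symm
    show ∑ i, (∑ l : ↥S, v i l.1 * h l) ^ 2 ≤ _
    rw [hx, hC]
    have hco := coercive h
    rw [hh] at hco ⊢
    -- `h c ≤ (3/8) g h² + (2/3) c²/g`
    have hyoung : ∀ k : ↥S, h k * c k.1 ≤ (3 / 8) * (gh k.1 * h k ^ 2) + (2 / 3) * (c k.1 ^ 2 / gh k.1) := by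
      intro k
      have hg := hgh k.1
      rw [← sub_nonneg]
      have : (3 / 8) * (gh k.1 * h k ^ 2) + (2 / 3) * (c k.1 ^ 2 / gh k.1) - h k * c k.1
          = (3 * gh k.1 * h k - 4 * c k.1) ^ 2 / (24 * gh k.1) := by
        field_simp
        ring
      rw [this]
      positivity
    have hs := Finset.sum_le_sum (s := univ) (fun k _ => hyoung k)
    simp only [Finset.sum_add_distrib, ← Finset.mul_sum] at hs
    linarith [Finset.sum_nonneg (s := univ) (f := fun k : ↥S => c k.1 ^ 2 / gh k.1)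
      (fun k _ => div_nonneg (sq_nonneg _) (hgh _).le)]

end Vale.Agent.P262.St
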