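import Vale.Agent.P262.St.Defs

/-! P262 St, module 2a: in every subspace of half the active dimension some direction makes a
positive semidefinite form at most twice its diagonal. -/

namespace Vale.Agent.P262.St

open Finset

/-- If fewer than half `|Act|` linear constraints are given, some nonzero `u` supported on `Act`
satisfies them and has `∑ w_g ⟨c_g,u⟩² ≤ 2 ∑ w_g c_g(i)² u_i²`. -/
theorem exists_dir {n : ℕ} {ι κ : Type*} [Fintype ι] [Fintype κ] (Act : Finset (Fin n))
    (hA : 0 < Act.card) (L : κ → Fin n → ℝ) (hL : 2 * Fintype.card κ ≤ Act.card)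
    (w : ι → ℝ) (hw : ∀ g, 0 ≤ w g) (c : ι → Fin n → ℝ) :
    ∃ u : Fin n → ℝ, u ≠ 0 ∧ (∀ i, i ∉ Act → u i = 0) ∧ (∀ a, ∑ i, L a i * u i = 0) ∧
      ∑ g, w g * (∑ i, c g i * u i) ^ 2 ≤ 2 * ∑ g, w g * ∑ i, c g i ^ 2 * u i ^ 2 := by
  classical
  let P : (Fin n → ℝ) →ₗ[ℝ] (κ → ℝ) × ({i // i ∉ Act} → ℝ) :=
    { toFun := fun u => (fun a => ∑ i, L a i * u i, fun i => u i)
      map_add' := fun u u' => by
        ext a <;> simp [mul_add, sum_add_distrib]
      map_smul' := fun r u => by
        ext a <;> simp [mul_sum, mul_left_comm] }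
  set V := LinearMap.ker P with hV
  have hdim : Act.card ≤ 2 * Module.finrank ℝ V := by
    have h1 := LinearMap.finrank_range_add_finrank_ker P
    have h2 := Submodule.finrank_le (LinearMap.range P)
    have h3 : Fintype.card {i // i ∉ Act} = n - Act.card := by
      rw [Fintype.card_subtype_compl, Fintype.card_fin, Fintype.card_coe]
    have h4 : Act.card ≤ n := by simpa using Finset.card_le_univ Act
    simp only [Module.finrank_prod, Module.finrank_fintype_fun_eq_card, Fintype.card_fin, h3] at h1 h2
    change _ + Module.finrank ℝ V = _ at h1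
    omega
  have hmem : ∀ u ∈ V, (∀ i, i ∉ Act → u i = 0) ∧ ∀ a, ∑ i, L a i * u i = 0 := by
    intro u hu
    have h : P u = 0 := LinearMap.mem_ker.mp hu
    exact ⟨fun i hi => congrFun (congrArg Prod.snd h) ⟨i, hi⟩,
      fun a => congrFun (congrArg Prod.fst h) a⟩
  set D : Fin n → ℝ := fun i => ∑ g, w g * c g i ^ 2 with hD
  have hD0 : ∀ i, 0 ≤ D i := fun i => sum_nonneg fun g _ => mul_nonneg (hw g) (sq_nonneg _)
  have hDz : ∀ i, D i = 0 → ∀ g, w g ≠ 0 → c g i = 0 := fun i hi g hg => by
    have := (sum_eq_zero_iff_of_nonneg fun g _ => mul_nonneg (hw g) (sq_nonneg (c g i))).mp hi g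
      (mem_univ g)
    rcases mul_eq_zero.mp this with h | h
    · exact absurd h hg
    · exact pow_eq_zero_iff (by norm_num) |>.mp h
  have hR : ∀ u : Fin n → ℝ, ∑ g, w g * ∑ i, c g i ^ 2 * u i ^ 2 = ∑ i, D i * u i ^ 2 := by
    intro u
    simp only [hD, mul_sum, sum_mul, ← mul_assoc]
    exact sum_comm
  let T : (Fin n → ℝ) →ₗ[ℝ] EuclideanSpace ℝ (Fin n) :=
    { toFun := fun u => WithLp.toLp 2 fun i => Real.sqrt (D i) * u i
      map_add' := fun u u' => by ext i; simp [mul_add]
      map_smul' := fun r u => by ext i; simp [mul_left_comm] }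
  by_cases hker : ∃ u ∈ V, u ≠ 0 ∧ T u = 0
  · obtain ⟨u, huV, hu0, hTu⟩ := hker
    refine ⟨u, hu0, (hmem u huV).1, (hmem u huV).2, le_of_eq_of_le ?_ (mul_nonneg zero_le_two ?_)⟩
    · refine sum_eq_zero fun g _ => ?_
      by_cases hg : w g = 0
      · simp [hg]
      · rw [sum_eq_zero (fun i _ => ?_)]
        · simp
        have h : Real.sqrt (D i) * u i = 0 := congrFun (congrArg WithLp.ofLp hTu) i
        rcases mul_eq_zero.mp h with h | h
        · rw [hDz i ((Real.sqrt_eq_zero (hD0 i)).mp h) g hg, zero_mul]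
        · rw [h, mul_zero]
    · exact sum_nonneg fun g _ => mul_nonneg (hw g)
        (sum_nonneg fun i _ => mul_nonneg (sq_nonneg _) (sq_nonneg _))
  · push Not at hker
    set V' : Submodule ℝ (EuclideanSpace ℝ (Fin n)) := V.map T with hV'
    have hinj : Function.Injective (T.comp V.subtype) := by
      rw [← LinearMap.ker_eq_bot, LinearMap.ker_eq_bot']
      intro u hu
      exact Subtype.ext (by_contra fun h => hker u u.2 h hu)
    have hfr : Module.finrank ℝ V' = Module.finrank ℝ V := by
      rw [hV', ← LinearMap.finrank_range_of_inj hinj, LinearMap.range_comp, Submodule.range_subtype]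
    set b := stdOrthonormalBasis ℝ V' with hb
    have hob : Orthonormal ℝ (fun k => (b k : EuclideanSpace ℝ (Fin n))) :=
      b.orthonormal.comp_linearIsometry V'.subtypeₗᵢ
    let a : ι → EuclideanSpace ℝ (Fin n) := fun g =>
      WithLp.toLp 2 fun i => if i ∈ Act then c g i / Real.sqrt (D i) else 0
    set F : EuclideanSpace ℝ (Fin n) → ℝ := fun z => ∑ g, w g * (inner ℝ z (a g)) ^ 2 with hF
    have htot : ∑ k, F (b k) ≤ Act.card := by
      simp only [hF]
      rw [sum_comm]
      simp only [← mul_sum]
      calc ∑ g, w g * ∑ k, (inner ℝ (b k : EuclideanSpace ℝ (Fin n)) (a g)) ^ 2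
          ≤ ∑ g, w g * ‖a g‖ ^ 2 := by
            refine sum_le_sum fun g _ => mul_le_mul_of_nonneg_left ?_ (hw g)
            have := hob.sum_inner_products_le (x := a g) (s := univ)
            simpa [Real.norm_eq_abs] using this
        _ = ∑ i, if i ∈ Act then D i / D i else 0 := by
            simp only [EuclideanSpace.norm_sq_eq, a, Real.norm_eq_abs, sq_abs, mul_sum]
            rw [sum_comm]
            refine sum_congr rfl fun i _ => ?_
            split_ifs with hi
            · rw [hD, sum_div]
              refine sum_congr rfl fun g _ => ?_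
              rw [div_pow, Real.sq_sqrt (hD0 i)]
              ring
            · simp
        _ ≤ ∑ i, if i ∈ Act then (1 : ℝ) else 0 := by
            refine sum_le_sum fun i _ => ?_
            split_ifs
            · exact div_self_le_one _
            · rfl
        _ = Act.card := by simp
    obtain ⟨k, hk⟩ : ∃ k, F (b k) ≤ 2 := by
      by_contra h
      push Not at h
      have hne : (univ : Finset (Fin (Module.finrank ℝ V'))).Nonempty :=
        univ_nonempty_iff.mpr ⟨⟨0, by omega⟩⟩
      have h1 := sum_lt_sum_of_nonempty hne fun k _ => h k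
      simp only [sum_const, card_univ, Fintype.card_fin, nsmul_eq_mul] at h1
      have h2 : (Act.card : ℝ) ≤ 2 * Module.finrank ℝ V' := by rw [hfr]; exact_mod_cast hdim
      linarith
    obtain ⟨u, huV, hu⟩ := Submodule.mem_map.mp (b k).2
    have hnorm : ‖T u‖ ^ 2 = 1 := by rw [hu]; simp [hob.norm_eq_one k]
    have hu0 : u ≠ 0 := by
      rintro rfl
      simp at hnorm
    refine ⟨u, hu0, (hmem u huV).1, (hmem u huV).2, ?_⟩
    have hRu : ∑ g, w g * ∑ i, c g i ^ 2 * u i ^ 2 = 1 := by
      rw [hR, ← hnorm, EuclideanSpace.norm_sq_eq]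
      refine sum_congr rfl fun i _ => ?_
      simp only [T, LinearMap.coe_mk, AddHom.coe_mk, Real.norm_eq_abs, sq_abs, mul_pow,
        Real.sq_sqrt (hD0 i)]
    have hLu : ∑ g, w g * (∑ i, c g i * u i) ^ 2 = F (b k) := by
      rw [← hu]
      refine sum_congr rfl fun g _ => ?_
      by_cases hg : w g = 0
      · simp [hg]
      congr 2
      simp only [EuclideanSpace.inner_eq_star_dotProduct, dotProduct, T, a, LinearMap.coe_mk,
        AddHom.coe_mk, star_trivial]
      refine sum_congr rfl fun i _ => ?_
      by_cases hi : i ∈ Act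
      · rw [if_pos hi]
        by_cases hDi : D i = 0
        · simp [hDz i hDi g hg]
        · have : Real.sqrt (D i) ≠ 0 := fun h => hDi ((Real.sqrt_eq_zero (hD0 i)).mp h)
          field_simp
      · simp [(hmem u huV).1 i hi]
    rw [hLu, hRu]
    linarith

end Vale.Agent.P262.St
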