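import Vale.Agent.P262.St.Interface
import Vale.Agent.P262.St.WalkDir

/-! P262 St, module 2: the engine. For a fixed `lam` maximise `|y|² - Φ(y)` on each face of the box,
`Φ(y) = ∑_j exp (lam * (Z_j(y) - 2 W_j))`; a maximiser cannot be interior to a face with more than
`r₀` free coordinates. Then let `lam → ∞` by compactness. -/

namespace Vale.Agent.P262.St

open Finset Filter Topology
open Classical

namespace Walk

variable {n G H q : ℕ}

/-- The alive coordinates. -/
noncomputable def alive (y : Fin n → ℝ) : Finset (Fin n) := univ.filter fun i => |y i| < 1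

/-- The data of a walk. -/
structure Data (n G H q : ℕ) where
  c : Fin G → Fin n → ℝ
  cls : Fin G → Fin H
  tst : Fin H → Fin q
  prot : Fin H → Finset (Fin n) → Prop
  W : Fin H → ℝ
  x : Fin n → ℝ

variable (d : Data n G H q)

/-- The functional `g` of the increment. -/
noncomputable def Data.lin (g : Fin G) (y : Fin n → ℝ) : ℝ := ∑ i, d.c g i * (y i - d.x i)

/-- The squared error of a test. -/
noncomputable def Data.A (j : Fin q) (y : Fin n → ℝ) : ℝ :=
  ∑ g ∈ univ.filter (fun g => d.tst (d.cls g) = j), d.lin g y ^ 2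

/-- The future budget of a class. -/
noncomputable def Data.R (h : Fin H) (S : Finset (Fin n)) (y : Fin n → ℝ) : ℝ :=
  if d.prot h S then d.W h
  else ∑ g ∈ univ.filter (fun g => d.cls g = h), ∑ i ∈ S, d.c g i ^ 2 * (1 - y i ^ 2)

/-- The total budget of a test. -/
noncomputable def Data.Wt (j : Fin q) : ℝ := ∑ h ∈ univ.filter (fun h => d.tst h = j), d.W h

/-- The potential of a test. -/
noncomputable def Data.Z (j : Fin q) (S : Finset (Fin n)) (y : Fin n → ℝ) : ℝ :=
  d.A j y + 2 * ∑ h ∈ univ.filter (fun h => d.tst h = j), d.R h S y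

/-- The potential. -/
noncomputable def Data.Phi (lam : ℝ) (S : Finset (Fin n)) (y : Fin n → ℝ) : ℝ :=
  ∑ j, Real.exp (lam * (d.Z j S y - 2 * d.Wt j))

lemma sum_pair (S : Finset (Fin n)) (j : Fin q) (F : Fin G → Fin n → ℝ) :
    ∑ h ∈ univ.filter (fun h => d.tst h = j),
      (if d.prot h S then 0 else ∑ g ∈ univ.filter (fun g => d.cls g = h), ∑ i ∈ S, F g i) =
      ∑ g ∈ univ.filter (fun g => d.tst (d.cls g) = j),
        (if d.prot (d.cls g) S then 0 else ∑ i ∈ S, F g i) := by
  rw [← sum_fiberwise_of_maps_to (t := univ.filter (fun h => d.tst h = j)) (g := d.cls)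
    (by intro g hg; simpa using hg)]
  refine sum_congr rfl fun h hh => ?_
  rw [filter_filter]
  have e : univ.filter (fun g => d.tst (d.cls g) = j ∧ d.cls g = h) =
      univ.filter (fun g => d.cls g = h) := by
    refine filter_congr fun g _ => ⟨And.right, fun hg => ⟨?_, hg⟩⟩
    rw [hg]; simpa using hh
  rw [e]
  by_cases hp : d.prot h S
  · rw [if_pos hp]
    exact (sum_eq_zero fun g hg => if_pos (by rw [(mem_filter.mp hg).2]; exact hp)).symm
  · rw [if_neg hp]
    refine sum_congr rfl fun g hg => ?_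
    rw [if_neg (by rw [(mem_filter.mp hg).2]; exact hp)]

lemma phase {r₀ : ℕ}
    (hpol : ∀ S : Finset (Fin n), r₀ < S.card →
      ∃ (Act : Finset (Fin n)) (r : ℕ) (row : Fin r → Fin n → ℝ),
        Act ⊆ S ∧ 2 * (r + 2 * q + 1) ≤ Act.card ∧
        ∀ g, d.prot (d.cls g) S → ∀ u : Fin n → ℝ, (∀ i, i ∉ Act → u i = 0) →
          (∀ a, ∑ i, row a i * u i = 0) → ∑ i, d.c g i * u i = 0)
    (lam : ℝ) (hlam : 0 ≤ lam) (y : Fin n → ℝ) (hy : ∀ i, |y i| ≤ 1)
    (hS : r₀ < (alive y).card) :
    ∃ z : Fin n → ℝ, (∀ i, |z i| ≤ 1) ∧ alive z ⊂ alive y ∧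
      d.Phi lam (alive y) z ≤ d.Phi lam (alive y) y + n := by
  set S := alive y with hSdef
  set K : Set (Fin n → ℝ) := Set.pi Set.univ fun i => if i ∈ S then Set.Icc (-1) 1 else {y i} with hKdef
  have hKc : IsCompact K := isCompact_univ_pi fun i => by
    split_ifs <;> [exact isCompact_Icc; exact isCompact_singleton]
  have hyK : y ∈ K := fun i _ => by
    dsimp only
    split_ifs
    · exact ⟨(abs_le.mp (hy i)).1, (abs_le.mp (hy i)).2⟩
    · rfl
  have hKi : ∀ z, z ∈ K ↔ (∀ i ∈ S, |z i| ≤ 1) ∧ ∀ i, i ∉ S → z i = y i := by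
    intro z
    constructor
    · intro hz
      refine ⟨fun i hi => ?_, fun i hi => ?_⟩
      · have := hz i (Set.mem_univ i)
        simp only [if_pos hi] at this
        exact abs_le.mpr ⟨this.1, this.2⟩
      · have := hz i (Set.mem_univ i)
        simp only [if_neg hi] at this
        exact this
    · rintro ⟨h1, h2⟩ i -
      dsimp only
      split_ifs with hi
      · exact ⟨(abs_le.mp (h1 i hi)).1, (abs_le.mp (h1 i hi)).2⟩
      · exact h2 i hi
  have hcont : Continuous fun z : Fin n → ℝ => ∑ i, z i ^ 2 - d.Phi lam S z := by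
    unfold Data.Phi Data.Z Data.A Data.R Data.lin
    refine Continuous.sub (by fun_prop) (continuous_finsetSum _ fun j _ => ?_)
    refine Real.continuous_exp.comp (continuous_const.mul (Continuous.sub (Continuous.add (by fun_prop)
      (continuous_const.mul (continuous_finsetSum _ fun h _ => ?_))) continuous_const))
    split_ifs <;> fun_prop
  obtain ⟨z, hzK, hmax⟩ := hKc.exists_isMaxOn ⟨y, hyK⟩ hcont.continuousOn
  obtain ⟨hzS, hzo⟩ := (hKi z).mp hzK
  have hzb : ∀ i, |z i| ≤ 1 := fun i => by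
    by_cases hi : i ∈ S
    · exact hzS i hi
    · rw [hzo i hi]; exact hy i
  have hsub : alive z ⊆ S := fun i hi => by
    by_contra h
    rw [alive, mem_filter, hzo i h] at hi
    exact h (mem_filter.mpr hi)
  refine ⟨z, hzb, Finset.ssubset_iff_subset_ne.mpr ⟨hsub, fun heq => ?_⟩, ?_⟩
  swap
  · have h1 : ∑ i, y i ^ 2 - d.Phi lam S y ≤ ∑ i, z i ^ 2 - d.Phi lam S z := hmax hyK
    have h2 : ∑ i, z i ^ 2 ≤ (n : ℝ) := by
      refine (sum_le_sum fun i _ => ?_ : _ ≤ ∑ _i : Fin n, (1 : ℝ)).trans_eq (by simp)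
      exact sq_le_one_iff_abs_le_one _ |>.mpr (hzb i)
    linarith [sum_nonneg fun i (_ : i ∈ (univ : Finset (Fin n))) => sq_nonneg (y i)]
  obtain ⟨Act, r, row, hAS, hcard, hkill⟩ := hpol S hS
  set e : Fin q → ℝ := fun j => Real.exp (lam * (d.Z j S z - 2 * d.Wt j)) with he
  let L : Fin r ⊕ (Unit ⊕ (Fin q ⊕ Fin q)) → Fin n → ℝ
    | Sum.inl a => row a
    | Sum.inr (Sum.inl _) => z
    | Sum.inr (Sum.inr (Sum.inl j)) => fun i =>
        ∑ g ∈ univ.filter (fun g => d.tst (d.cls g) = j), d.lin g z * d.c g i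
    | Sum.inr (Sum.inr (Sum.inr j)) => fun i =>
        ∑ g ∈ univ.filter (fun g => d.tst (d.cls g) = j),
          if d.prot (d.cls g) S then 0 else d.c g i ^ 2 * z i
  obtain ⟨u, hu0, huA, huL, huQ⟩ := exists_dir Act (by omega) L (by simp; omega)
    (fun g => if d.prot (d.cls g) S then 0 else e (d.tst (d.cls g)))
    (fun g => by split_ifs <;> [exact le_rfl; exact (Real.exp_pos _).le]) d.c
  have huS : ∀ i, i ∉ S → u i = 0 := fun i hi => huA i fun h => hi (hAS h)
  set l : Fin G → ℝ := fun g => ∑ i, d.c g i * u i with hl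
  have hl0 : ∀ g, d.prot (d.cls g) S → l g = 0 := fun g hg =>
    hkill g hg u huA fun a => huL (Sum.inl a)
  set Q : Fin q → ℝ := fun j => ∑ g ∈ univ.filter (fun g => d.tst (d.cls g) = j),
    (l g ^ 2 - 2 * if d.prot (d.cls g) S then 0 else ∑ i ∈ S, d.c g i ^ 2 * u i ^ 2) with hQ
  have hsumQ : ∑ j, e j * Q j ≤ 0 := by
    have e1 : ∑ j, e j * Q j = ∑ g, e (d.tst (d.cls g)) *
        (l g ^ 2 - 2 * if d.prot (d.cls g) S then 0 else ∑ i ∈ S, d.c g i ^ 2 * u i ^ 2) := by
      rw [← sum_fiberwise (g := fun g => d.tst (d.cls g)) univ]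
      refine sum_congr rfl fun j _ => ?_
      rw [hQ, mul_sum]
      exact sum_congr rfl fun g hg => by rw [(mem_filter.mp hg).2]
    rw [e1]
    simp only [mul_sub, sum_sub_distrib, sub_nonpos]
    refine (le_of_eq (sum_congr rfl fun g _ => ?_)).trans (huQ.trans (le_of_eq ?_))
    · simp only [hl]
      split_ifs with hg
      · rw [show ∑ i, d.c g i * u i = 0 from hl0 g hg]; simp
      · rfl
    · rw [mul_sum]
      refine sum_congr rfl fun g _ => ?_
      split_ifs with hg
      · simp
      · rw [sum_subset (subset_univ S) fun i _ hi => by rw [huS i hi]; ring]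
        ring
  have hlin : ∀ g (t : ℝ), d.lin g (z + t • u) = d.lin g z + t * l g := fun g t => by
    simp only [Data.lin, hl, mul_sum, ← sum_add_distrib]
    refine sum_congr rfl fun i _ => ?_
    simp only [Pi.add_apply, Pi.smul_apply, smul_eq_mul]
    ring
  have hZ : ∀ j (t : ℝ), d.Z j S (z + t • u) = d.Z j S z + t ^ 2 * Q j := by
    intro j t
    set F := univ.filter (fun g => d.tst (d.cls g) = j) with hFdef
    have hA' : d.A j (z + t • u) = d.A j z + t ^ 2 * ∑ g ∈ F, l g ^ 2 := by
      have hg1 : ∑ g ∈ F, d.lin g z * l g = 0 := by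
        have := huL (Sum.inr (Sum.inr (Sum.inl j)))
        simp only [L, sum_mul] at this
        rw [sum_comm] at this
        rw [← this]
        refine sum_congr rfl fun g _ => ?_
        rw [hl, mul_sum]
        exact sum_congr rfl fun i _ => by ring
      calc d.A j (z + t • u) = ∑ g ∈ F, (d.lin g z ^ 2 + 2 * t * (d.lin g z * l g) + t ^ 2 * l g ^ 2) :=
            sum_congr rfl fun g _ => by rw [hlin]; ring
        _ = _ := by
            rw [sum_add_distrib, sum_add_distrib, ← mul_sum, ← mul_sum, hg1]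
            simp [Data.A, hFdef]
    have hR' : ∑ h ∈ univ.filter (fun h => d.tst h = j), d.R h S (z + t • u) =
        ∑ h ∈ univ.filter (fun h => d.tst h = j), d.R h S z -
          t ^ 2 * ∑ g ∈ F, (if d.prot (d.cls g) S then 0 else ∑ i ∈ S, d.c g i ^ 2 * u i ^ 2) := by
      have hg2 : ∑ g ∈ F, (if d.prot (d.cls g) S then 0 else ∑ i ∈ S, d.c g i ^ 2 * z i * u i) = 0 := by
        have := huL (Sum.inr (Sum.inr (Sum.inr j)))
        simp only [L, sum_mul] at this
        rw [sum_comm] at this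
        refine (sum_congr rfl fun g _ => ?_).trans this
        split_ifs with hg
        · simp
        · exact sum_subset (subset_univ S) fun i _ hi => by rw [huS i hi, mul_zero]
      have key : ∀ h, d.R h S (z + t • u) = d.R h S z +
          (-(2 * t)) * (if d.prot h S then 0 else
            ∑ g ∈ univ.filter (fun g => d.cls g = h), ∑ i ∈ S, d.c g i ^ 2 * z i * u i) +
          (-(t ^ 2)) * (if d.prot h S then 0 else
            ∑ g ∈ univ.filter (fun g => d.cls g = h), ∑ i ∈ S, d.c g i ^ 2 * u i ^ 2) := by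
        intro h
        simp only [Data.R]
        split_ifs
        · simp
        · simp only [mul_sum, ← sum_add_distrib]
          refine sum_congr rfl fun g _ => sum_congr rfl fun i _ => ?_
          simp only [Pi.add_apply, Pi.smul_apply, smul_eq_mul]
          ring
      rw [sum_congr rfl fun h _ => key h, sum_add_distrib, sum_add_distrib, ← mul_sum, ← mul_sum,
        sum_pair, sum_pair, hg2]
      ring
    simp only [Data.Z, hA', hR', hQ, sum_sub_distrib, ← mul_sum, ← hFdef]
    ring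
  have hzu : ∑ i, z i * u i = 0 := huL (Sum.inr (Sum.inl ()))
  have hev : ∀ᶠ t : ℝ in 𝓝 0, ∀ i ∈ S, |(z + t • u) i| ≤ 1 := by
    rw [Filter.eventually_all_finset]
    intro i hi
    have h1 : |z i| < 1 := by
      rw [← heq] at hi
      exact (mem_filter.mp hi).2
    have h2 : Continuous fun t : ℝ => |(z + t • u) i| := by
      simp only [Pi.add_apply, Pi.smul_apply, smul_eq_mul]
      fun_prop
    have h3 : Tendsto (fun t : ℝ => |(z + t • u) i|) (𝓝 0) (𝓝 |z i|) := by
      simpa using h2.tendsto 0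
    exact (h3.eventually (gt_mem_nhds h1)).mono fun t ht => ht.le
  set U : ℝ := ∑ i, u i ^ 2 with hU
  have hUpos : 0 < U := by
    obtain ⟨i, hi⟩ := Function.ne_iff.mp hu0
    exact sum_pos' (fun i _ => sq_nonneg _) ⟨i, mem_univ i, sq_pos_of_ne_zero (by simpa using hi)⟩
  set f : ℝ → ℝ := fun τ => τ * U - ∑ j, e j * Real.exp (τ * (lam * Q j)) with hf
  have hfd : HasDerivAt f (U - lam * ∑ j, e j * Q j) 0 := by
    have h1 : ∀ j, HasDerivAt (fun τ => e j * Real.exp (τ * (lam * Q j))) (e j * (lam * Q j)) 0 := by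
      intro j
      have h2 : HasDerivAt (fun τ : ℝ => τ * (lam * Q j)) (lam * Q j) 0 := by
        simpa using (hasDerivAt_id (0 : ℝ)).mul_const (lam * Q j)
      simpa using h2.exp.const_mul (e j)
    have h4 : HasDerivAt f (U - ∑ j, e j * (lam * Q j)) 0 := by
      have h5 := HasDerivAt.fun_sum (u := univ) fun j _ => h1 j
      exact ((hasDerivAt_id (0 : ℝ)).mul_const U |>.congr_deriv (one_mul U)).sub h5
    convert h4 using 2
    rw [mul_sum]
    exact sum_congr rfl fun j _ => by ring
  have hpos : 0 < U - lam * ∑ j, e j * Q j := by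
    have := mul_nonpos_of_nonneg_of_nonpos hlam hsumQ
    linarith
  have hev2 := (hfd.tendsto_slope_zero_right.eventually (lt_mem_nhds hpos))
  have hev3 : ∀ᶠ τ : ℝ in 𝓝[>] 0, ∀ i ∈ S, |(z + Real.sqrt τ • u) i| ≤ 1 := by
    have h : Tendsto Real.sqrt (𝓝[>] (0 : ℝ)) (𝓝 0) := by
      simpa using (Real.continuous_sqrt.tendsto (0 : ℝ)).mono_left nhdsWithin_le_nhds
    exact h.eventually hev
  obtain ⟨τ, hτ1, hτ2, hτ0⟩ := (hev2.and (hev3.and self_mem_nhdsWithin)).exists
  have hτ : (0 : ℝ) < τ := hτ0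
  have hmem : z + Real.sqrt τ • u ∈ K := (hKi _).mpr ⟨hτ2, fun i hi => by
    simp [huS i hi, hzo i hi]⟩
  have h5 : ∑ i, (z + Real.sqrt τ • u) i ^ 2 - d.Phi lam S (z + Real.sqrt τ • u) ≤
      ∑ i, z i ^ 2 - d.Phi lam S z := hmax hmem
  have h6 : ∑ i, (z + Real.sqrt τ • u) i ^ 2 = ∑ i, z i ^ 2 + τ * U := by
    rw [hU, mul_sum]
    calc ∑ i, (z + Real.sqrt τ • u) i ^ 2
        = ∑ i, (z i ^ 2 + 2 * Real.sqrt τ * (z i * u i) + τ * u i ^ 2) := sum_congr rfl fun i _ => by
          simp only [Pi.add_apply, Pi.smul_apply, smul_eq_mul]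
          linear_combination u i ^ 2 * Real.mul_self_sqrt hτ.le
      _ = _ := by rw [sum_add_distrib, sum_add_distrib, ← mul_sum, hzu]; ring
  have h7 : d.Phi lam S (z + Real.sqrt τ • u) = ∑ j, e j * Real.exp (τ * (lam * Q j)) := by
    refine sum_congr rfl fun j _ => ?_
    rw [he, ← Real.exp_add, hZ, Real.sq_sqrt hτ.le]
    ring_nf
  have h8 : f 0 = -d.Phi lam S z := by simp [hf, he, Data.Phi]
  have h9 : 0 < f τ - f 0 := by
    simp only [zero_add, smul_eq_mul] at hτ1
    exact (mul_pos_iff_of_pos_left (inv_pos.mpr hτ)).mp hτ1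
  simp only [h6, h7] at h5
  rw [h8] at h9
  simp only [hf] at h9
  linarith

lemma R_mono (hm : ∀ h S S', S ⊆ S' → d.prot h S → d.prot h S')
    (hb : ∀ h S, ¬ d.prot h S →
      ∑ g ∈ univ.filter (fun g => d.cls g = h), ∑ i ∈ S, d.c g i ^ 2 ≤ d.W h)
    {S : Finset (Fin n)} {z : Fin n → ℝ} (hz : ∀ i, |z i| ≤ 1) (hs : alive z ⊆ S) (h : Fin H) :
    d.R h (alive z) z ≤ d.R h S z := by
  have hzero : ∀ i, i ∉ alive z → 1 - z i ^ 2 = 0 := fun i hi => by
    have h1 : |z i| = 1 := le_antisymm (hz i) (not_lt.mp fun h => hi (mem_filter.mpr ⟨mem_univ i, h⟩))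
    rw [← sq_abs, h1]; ring
  simp only [Data.R]
  split_ifs with h1 h2 h3
  · exact le_rfl
  · exact absurd (hm h _ _ hs h1) h2
  · refine le_trans (sum_le_sum fun g _ => sum_le_sum fun i _ => ?_) (hb h _ h1)
    exact mul_le_of_le_one_right (sq_nonneg _) (by linarith [sq_nonneg (z i)])
  · refine le_of_eq (sum_congr rfl fun g _ => ?_)
    exact sum_subset hs fun i _ hi => by rw [hzero i hi, mul_zero]

end Walk

open Walk in
/-- Module 2. -/
theorem engineExists : EngineExists := by
  intro n G H q r₀ c cls tst prot W hm hW hb hpol x hx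
  let d : Data n G H q := ⟨c, cls, tst, prot, W, x⟩
  set F : Set (Fin n → ℝ) :=
    ⋃ S ∈ (univ : Finset (Finset (Fin n))).filter (fun S => S.card ≤ r₀),
      Set.pi Set.univ fun i => if i ∈ S then Set.Icc (-1) 1 else {-1, 1} with hF
  have hFc : IsCompact F := by
    refine (Finset.finite_toSet _).isCompact_biUnion fun S _ => isCompact_univ_pi fun i => ?_
    split_ifs <;> [exact isCompact_Icc; exact (Set.toFinite _).isCompact]
  have hFi : ∀ y, y ∈ F ↔ (∀ i, |y i| ≤ 1) ∧ (alive y).card ≤ r₀ := by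
    intro y
    simp only [hF, Set.mem_iUnion, mem_filter, mem_univ, true_and, exists_prop, Set.mem_pi,
      Set.mem_univ, forall_true_left]
    constructor
    · rintro ⟨S, hS, h⟩
      have h' : ∀ i, |y i| ≤ 1 ∧ (i ∉ S → |y i| = 1) := fun i => by
        have := h i
        split_ifs at this with hi
        · exact ⟨abs_le.mpr ⟨this.1, this.2⟩, fun h => absurd hi h⟩
        · refine ⟨?_, fun _ => ?_⟩ <;> (rcases this with e | (e : y i = 1) <;> rw [e] <;> norm_num)
      refine ⟨fun i => (h' i).1, le_trans (card_le_card fun i hi => ?_) hS⟩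
      by_contra hn
      exact absurd (mem_filter.mp hi).2 (by rw [(h' i).2 hn]; exact lt_irrefl _)
    · rintro ⟨h1, h2⟩
      refine ⟨alive y, h2, fun i => ?_⟩
      split_ifs with hi
      · exact ⟨(abs_le.mp (h1 i)).1, (abs_le.mp (h1 i)).2⟩
      · have h3 : |y i| = 1 := le_antisymm (h1 i) (not_lt.mp fun h => hi (mem_filter.mpr ⟨mem_univ i, h⟩))
        rcases (abs_eq zero_le_one).mp h3 with e | e <;> simp [e]
  have hR0 : ∀ h (y : Fin n → ℝ) S, (∀ i, |y i| ≤ 1) → 0 ≤ d.R h S y := by
    intro h y S hy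
    simp only [Data.R]
    split_ifs
    · exact hW h
    · exact sum_nonneg fun g _ => sum_nonneg fun i _ => mul_nonneg (sq_nonneg _)
        (sub_nonneg.mpr ((sq_le_one_iff_abs_le_one _).mpr (hy i)))
  -- the run for one parameter
  have run : ∀ lam : ℝ, 0 ≤ lam → ∀ k : ℕ, ∀ y : Fin n → ℝ, (∀ i, |y i| ≤ 1) → (alive y).card ≤ k →
      ∃ z ∈ F, d.Phi lam (alive z) z ≤ d.Phi lam (alive y) y + k * n := by
    intro lam hlam k
    induction k with
    | zero => exact fun y hy hk => ⟨y, (hFi y).mpr ⟨hy, hk.trans (Nat.zero_le _)⟩, by simp⟩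
    | succ k ih =>
      intro y hy hk
      by_cases hS : r₀ < (alive y).card
      · obtain ⟨w, hw1, hw2, hw3⟩ := phase d hpol lam hlam y hy hS
        obtain ⟨z, hz, hz2⟩ := ih w hw1 (by have := card_lt_card hw2; omega)
        refine ⟨z, hz, hz2.trans ?_⟩
        have hsw : d.Phi lam (alive w) w ≤ d.Phi lam (alive y) w := by
          refine sum_le_sum fun j _ => Real.exp_le_exp.mpr (mul_le_mul_of_nonneg_left ?_ hlam)
          simp only [Data.Z]
          have := sum_le_sum fun h (_ : h ∈ univ.filter (fun h => d.tst h = j)) =>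
            R_mono d hm hb hw1 hw2.subset h
          linarith
        push_cast
        linarith
      · exact ⟨y, (hFi y).mpr ⟨hy, not_lt.mp hS⟩, le_add_of_nonneg_right (by positivity)⟩
  set V : (Fin n → ℝ) → ℝ := fun y => ∑ j, max 0 (d.A j y - 2 * d.Wt j) with hV
  set M : ℝ := q + n * n + 1 with hM
  have hM1 : 1 ≤ M := by rw [hM]; linarith [show (0 : ℝ) ≤ (q : ℝ) + n * n by positivity]
  have approx : ∀ lam : ℝ, 0 < lam → ∃ z ∈ F, V z ≤ q * (Real.log M / lam) := by
    intro lam hlam
    obtain ⟨z, hz, hzP⟩ := run lam hlam.le n x hx (by simpa using card_le_univ (alive x))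
    have hx0 : d.Phi lam (alive x) x ≤ q := by
      refine (sum_le_sum fun j _ => ?_ : _ ≤ ∑ _j : Fin q, (1 : ℝ)).trans_eq (by simp)
      rw [Real.exp_le_one_iff]
      refine mul_nonpos_of_nonneg_of_nonpos hlam.le ?_
      have hA0 : d.A j x = 0 := by simp [Data.A, Data.lin, d]
      have hR : ∀ h, d.R h (alive x) x ≤ d.W h := by
        intro h
        simp only [Data.R]
        split_ifs with h1
        · exact le_rfl
        · refine le_trans (sum_le_sum fun g _ => sum_le_sum fun i _ => ?_) (hb h _ h1)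
          exact mul_le_of_le_one_right (sq_nonneg _) (by linarith [sq_nonneg (x i)])
      simp only [Data.Z, Data.Wt, hA0]
      linarith [sum_le_sum fun h (_ : h ∈ univ.filter (fun h => d.tst h = j)) => hR h]
    refine ⟨z, hz, ?_⟩
    refine (sum_le_sum fun j _ => max_le (div_nonneg (Real.log_nonneg hM1) hlam.le) ?_ :
      _ ≤ ∑ _j : Fin q, Real.log M / lam).trans_eq (by simp)
    rw [le_div_iff₀ hlam]
    have h1 : Real.exp (lam * (d.Z j (alive z) z - 2 * d.Wt j)) ≤ M := by
      refine le_trans (single_le_sum (f := fun j => Real.exp (lam * (d.Z j (alive z) z - 2 * d.Wt j)))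
        (fun _ _ => (Real.exp_pos _).le) (mem_univ j)) ?_
      have : d.Phi lam (alive z) z ≤ M := by rw [hM]; linarith
      exact this
    have h2 := (Real.le_log_iff_exp_le (by linarith)).mpr h1
    have h3 : d.A j z ≤ d.Z j (alive z) z := by
      simp only [Data.Z]
      linarith [sum_nonneg fun h (_ : h ∈ univ.filter (fun h => d.tst h = j)) =>
        hR0 h z (alive z) ((hFi z).mp hz).1]
    nlinarith
  obtain ⟨z₀, hz₀, -⟩ := approx 1 one_pos
  have hVc : Continuous V := by
    simp only [hV, Data.A, Data.lin]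
    fun_prop
  obtain ⟨y, hyF, hymin⟩ := hFc.exists_isMinOn ⟨z₀, hz₀⟩ hVc.continuousOn
  have hV0 : V y ≤ 0 := by
    by_contra h
    push Not at h
    set lam := (q * Real.log M + 1) / V y with hlam
    have hl : 0 < lam := div_pos (by nlinarith [Real.log_nonneg hM1, (q.cast_nonneg : (0:ℝ) ≤ q)]) h
    obtain ⟨z, hz, hzV⟩ := approx lam hl
    have h1 : V y ≤ V z := hymin hz
    have h2 : lam * V y = q * Real.log M + 1 := by rw [hlam]; field_simp
    have h3 : lam * (q * (Real.log M / lam)) = q * Real.log M := by field_simp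
    nlinarith [mul_le_mul_of_nonneg_left (h1.trans hzV) hl.le]
  obtain ⟨hy1, hy2⟩ := (hFi y).mp hyF
  refine ⟨y, hy1, hy2, fun j => ?_⟩
  have h := single_le_sum (f := fun j => max 0 (d.A j y - 2 * d.Wt j))
    (fun _ _ => le_max_left _ _) (mem_univ j)
  have h' := ((le_max_right 0 _).trans h).trans hV0
  have hWt : 0 ≤ d.Wt j := sum_nonneg fun h _ => hW h
  show d.A j y ≤ 7 * d.Wt j
  linarith

end Vale.Agent.P262.St
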